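import Crest.Agent.H0076.Main
import Crest.Prelude.Def_FinProb
import Crest.Prelude.Def_RandomGraph

set_option autoImplicit false
open Finset Crest.CombinatoricsR.RandomGraph

namespace Crest.Agent.H0076

/-- a permutation of the vertices permutes the edge slots -/
def actPerm {n : ℕ} (σ : Equiv.Perm (Fin n)) : Equiv.Perm (EdgeSlot n) where
  toFun z := ⟨z.1.map σ, fun h => z.2 ((Sym2.isDiag_map σ.injective).1 h)⟩
  invFun z := ⟨z.1.map σ.symm, fun h => z.2 ((Sym2.isDiag_map σ.symm.injective).1 h)⟩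
  left_inv z := by
    apply Subtype.ext
    simp [Sym2.map_map]
  right_inv z := by
    apply Subtype.ext
    simp [Sym2.map_map]

def act (n : ℕ) : Equiv.Perm (Fin n) →* Equiv.Perm (EdgeSlot n) where
  toFun := actPerm
  map_one' := by
    ext1 z
    apply Subtype.ext
    simp [actPerm]
  map_mul' σ τ := by
    ext1 z
    apply Subtype.ext
    simp [actPerm, Sym2.map_map]

variable {n : ℕ} {W : Type} (H : SimpleGraph W) (ι : W ↪ Fin n)

/-- the copy of `H` placed by `σ ∘ ι` -/
def emb (σ : Equiv.Perm (Fin n)) : H.edgeSet ↪ EdgeSlot n where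
  toFun v := ⟨v.1.map (σ ∘ ι), fun h => H.not_isDiag_of_mem_edgeSet v.2
    ((Sym2.isDiag_map (σ.injective.comp ι.injective)).1 h)⟩
  inj' _ _ h := Subtype.ext (Sym2.map.injective (σ.injective.comp ι.injective)
    (congrArg Subtype.val h))

lemma emb_val (σ : Equiv.Perm (Fin n)) (v : H.edgeSet) :
    (emb H ι σ v).1 = v.1.map (σ ∘ ι) := rfl

lemma act_emb (g σ : Equiv.Perm (Fin n)) (v : H.edgeSet) :
    act n g (emb H ι σ v) = emb H ι (g * σ) v := by
  apply Subtype.ext
  change Sym2.map g (v.1.map (σ ∘ ι)) = v.1.map ((g * σ : Equiv.Perm (Fin n)) ∘ ι)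
  rw [Sym2.map_map]
  rfl

lemma graphOf_adj (ω : EdgeSlot n → Bool) (x y : Fin n) :
    (graphOf ω).Adj x y ↔ ∃ h : ¬ s(x, y).IsDiag, ω ⟨s(x, y), h⟩ = true := by
  simp only [graphOf, SimpleGraph.fromEdgeSet_adj, Set.mem_ofPred_eq]
  constructor
  · exact fun h => h.1
  · rintro ⟨h, h'⟩
    exact ⟨⟨h, h'⟩, by simpa using h⟩

lemma contained (ω : EdgeSlot n → Bool) (σ : Equiv.Perm (Fin n))
    (h : ∀ v, ω (emb H ι σ v) = true) : H.IsContained (graphOf ω) := by
  refine ⟨⟨⟨σ ∘ ι, fun {a b} hab => ?_⟩, σ.injective.comp ι.injective⟩⟩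
  rw [graphOf_adj]
  exact ⟨(emb H ι σ ⟨s(a, b), hab⟩).2, h ⟨s(a, b), hab⟩⟩

/-- the subgraph spanned by a set of edges -/
def sub (I : Finset H.edgeSet) : H.Subgraph where
  verts := {w | ∃ w', ∃ v ∈ I, v.1 = s(w, w')}
  Adj w w' := ∃ v ∈ I, v.1 = s(w, w')
  adj_sub := by
    rintro w w' ⟨v, -, hv⟩
    have := v.2
    rwa [hv] at this
  edge_vert := fun {_ w'} h => ⟨w', h⟩
  symm := ⟨by
    rintro w w' ⟨v, hv, hv'⟩
    exact ⟨v, hv, by rw [hv', Sym2.eq_swap]⟩⟩

open Classical in
lemma copyCount_le (I : Finset H.edgeSet) (ω : EdgeSlot n → Bool) :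
    (graphOf ω).copyCount (sub H I).coe ≤
      ((univ.image fun π => I.map (emb H ι π)).filter fun U => ∀ z ∈ U, ω z = true).card := by
  have : Finite W := Finite.of_injective _ ι.injective
  rw [SimpleGraph.copyCount]
  refine Finset.card_le_card_of_injOn
    (fun G' => univ.filter fun z : EdgeSlot n => z.1 ∈ G'.edgeSet) (fun G' hG' => ?_) ?_
  · simp only [coe_filter, mem_univ, true_and, Set.mem_ofPred_eq] at hG' ⊢
    obtain ⟨f⟩ := hG'
    obtain ⟨σ, hσ⟩ := Equiv.Perm.exists_extending_pair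
      (fun w : (sub H I).verts => ι w.1) (fun w => (f w).1)
      (ι.injective.comp Subtype.val_injective) (Subtype.val_injective.comp f.injective)
    refine ⟨mem_image.2 ⟨σ, mem_univ _, ?_⟩, ?_⟩
    · ext z
      simp only [mem_filter, mem_univ, true_and, Finset.mem_map]
      constructor
      · rintro ⟨⟨v, hvH⟩, hv, rfl⟩
        induction v using Sym2.ind with
        | h w w' =>
          have hadj : (sub H I).Adj w w' := ⟨_, hv, rfl⟩
          have h1 : (sub H I).coe.Adj ⟨w, hadj.fst_mem⟩ ⟨w', hadj.snd_mem⟩ := hadj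
          have h2 := f.map_rel_iff.2 h1
          rw [emb_val, Sym2.map_mk]
          have e1 := hσ ⟨w, hadj.fst_mem⟩
          have e2 := hσ ⟨w', hadj.snd_mem⟩
          simp only [Function.comp_apply] at e1 e2 ⊢
          rw [e1, e2]
          exact h2
      · obtain ⟨z, hz⟩ := z
        induction z using Sym2.ind with
        | h x x' =>
          intro hadj
          have hadj : G'.Adj x x' := hadj
          obtain ⟨w, hw⟩ := f.surjective ⟨x, hadj.fst_mem⟩
          obtain ⟨w', hw'⟩ := f.surjective ⟨x', hadj.snd_mem⟩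
          have h1 : G'.coe.Adj (f w) (f w') := by rw [hw, hw']; exact hadj
          obtain ⟨v, hv, hv'⟩ : (sub H I).Adj w.1 w'.1 := f.map_rel_iff.1 h1
          refine ⟨v, hv, Subtype.ext ?_⟩
          rw [emb_val, hv', Sym2.map_mk]
          have e1 := hσ w
          have e2 := hσ w'
          simp only [Function.comp_apply] at e1 e2 ⊢
          rw [e1, e2, hw, hw']
    · rintro ⟨z, hz⟩ hz'
      induction z using Sym2.ind with
      | h x x' =>
        have hadj : G'.Adj x x' := (mem_filter.1 hz').2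
        obtain ⟨_, h⟩ := (graphOf_adj ω x x').1 hadj.adj_sub
        exact h
  · have key : ∀ G1 G2 : (graphOf ω).Subgraph,
        (univ.filter fun z : EdgeSlot n => z.1 ∈ G1.edgeSet) =
          (univ.filter fun z : EdgeSlot n => z.1 ∈ G2.edgeSet) →
        ∀ x y, G1.Adj x y → G2.Adj x y := by
      intro G1 G2 h x y hxy
      have hd : ¬ s(x, y).IsDiag := by simpa using hxy.ne
      have h1 : (⟨s(x, y), hd⟩ : EdgeSlot n) ∈
          univ.filter fun z : EdgeSlot n => z.1 ∈ G1.edgeSet := by simpa using hxy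
      rw [h] at h1
      simpa using h1
    have key2 : ∀ G1 G2 : (graphOf ω).Subgraph, Nonempty ((sub H I).coe ≃g G1.coe) →
        (∀ x y, G1.Adj x y → G2.Adj x y) → G1.verts ⊆ G2.verts := by
      rintro G1 G2 ⟨f⟩ h x hx
      obtain ⟨w, hw⟩ := f.surjective ⟨x, hx⟩
      obtain ⟨w', hw'⟩ := w.2
      have hadj : (sub H I).Adj w.1 w' := hw'
      have h1 : (sub H I).coe.Adj w ⟨w', hadj.snd_mem⟩ := hadj
      have h2 := f.map_rel_iff.2 h1
      rw [hw] at h2
      exact (h _ _ h2).fst_mem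
    intro G1 h1 G2 h2 h
    simp only [coe_filter, mem_univ, true_and, Set.mem_ofPred_eq] at h1 h2
    refine SimpleGraph.Subgraph.ext (Set.Subset.antisymm (key2 _ _ h1 (key _ _ h))
      (key2 _ _ h2 (key _ _ h.symm))) ?_
    ext x y
    exact ⟨key _ _ h x y, key _ _ h.symm x y⟩

open Classical in
lemma expect_le (I : Finset H.edgeSet) (p : ℝ) (hp0 : 0 ≤ p) (hp1 : p ≤ 1) :
    gnpExpect n p (fun G => (G.copyCount (sub H I).coe : ℝ)) ≤
      (univ.image fun π => I.map (emb H ι π)).card * p ^ I.card := by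
  have h0 : ∀ b : Bool, 0 ≤ (if b then p else 1 - p) := fun b => by
    split_ifs <;> linarith
  have h1 : ∑ b : Bool, (if b then p else 1 - p) = 1 := by simp
  have h2 : gnpExpect n p (fun G => (G.copyCount (sub H I).coe : ℝ)) ≤
      ∑ ω : EdgeSlot n → Bool, wt (fun b : Bool => if b then p else 1 - p) ω *
        ∑ U ∈ univ.image fun π => I.map (emb H ι π),
          ∏ z ∈ U, (if ω z = true then (1:ℝ) else 0) := by
    refine Finset.sum_le_sum fun ω _ => mul_le_mul_of_nonneg_left ?_ (wt_nonneg h0 ω)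
    refine le_trans (Nat.cast_le.2 (copyCount_le H ι I ω)) (le_of_eq ?_)
    rw [Finset.card_filter]
    push_cast
    refine Finset.sum_congr rfl fun U _ => ?_
    split_ifs with h
    · exact (Finset.prod_eq_one fun z hz => if_pos (h z hz)).symm
    · push Not at h
      obtain ⟨z, hz, hz'⟩ := h
      exact (Finset.prod_eq_zero hz (if_neg hz')).symm
  refine h2.trans (le_of_eq ?_)
  simp only [Finset.mul_sum]
  rw [Finset.sum_comm, ← nsmul_eq_mul, ← Finset.sum_const]
  refine Finset.sum_congr rfl fun U hU => ?_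
  obtain ⟨π, -, rfl⟩ := Finset.mem_image.1 hU
  rw [sum_wt_prod h1 _ (fun b : Bool => if b = true then (1:ℝ) else 0)]
  simp

end Crest.Agent.H0076
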