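import Crest.Agent.H0076.Det

set_option autoImplicit false
open Finset

namespace Crest.Agent.H0076

variable {Γ V E : Type*} [Fintype Γ] [Fintype V] [DecidableEq V] [Fintype E] [DecidableEq E]

omit [Fintype Γ] [DecidableEq V] [Fintype E] in
lemma feas_pair (φ : Γ → V ↪ E) (k : V → ℕ) (y : ℕ → ℝ) (hy0 : ∀ l, 0 ≤ y l) (hy : Antitone y)
    (π : Γ) (t : ℕ) (ω : E → ℕ) (G : Γ) (hG : feas φ k π t ω G) :
    ∃ I : Finset V, I.map (φ π) = (frag φ k t ω G).map (φ G) ∧
      ∏ v ∈ frag φ k t ω G, y (k v + t) ≤ ∏ v ∈ I, y (k v + t) := by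
  classical
  set Y := frag φ k t ω G with hY
  have hYm : ∀ v, v ∈ Y ↔ k v + t < ω (φ G v) := fun v => by simp [hY, frag]
  have hI : (univ.filter fun w => φ π w ∈ Y.map (φ G)).map (φ π) = Y.map (φ G) := by
    ext x
    constructor
    · intro hx
      obtain ⟨w, hw, rfl⟩ := Finset.mem_map.1 hx
      exact (mem_filter.1 hw).2
    · intro hx
      obtain ⟨v, hv, rfl⟩ := Finset.mem_map.1 hx
      obtain ⟨w, hw, -⟩ := hG v ((hYm v).1 hv)
      refine Finset.mem_map.2 ⟨w, ?_, hw⟩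
      rw [mem_filter, hw]
      exact ⟨mem_univ _, hx⟩
  refine ⟨_, hI, ?_⟩
  have e1 : ∀ (G' : Γ) (S : Finset V), ∏ v ∈ S, y (k v + t) =
      ∏ x ∈ S.map (φ G'), y (kE φ k G' x + t) := by
    intro G' S
    rw [Finset.prod_map]
    simp only [kE_apply]
  rw [e1 G Y, e1 π, hI]
  refine Finset.prod_le_prod (fun _ _ => hy0 _) fun x hx => ?_
  obtain ⟨v, hv, rfl⟩ := Finset.mem_map.1 hx
  obtain ⟨w, hw, hw'⟩ := hG v ((hYm v).1 hv)
  rw [kE_apply, ← hw, kE_apply]
  exact hy (by omega)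

omit [Fintype V] [DecidableEq V] in
/-- the probability that `G` decodes itself, summed over `G` -/
lemma decode_bound [DecidableEq Γ] (φ : Γ → V ↪ E) (k : V → ℕ) {A : ℕ} {ρ : Fin (A + 1) → ℝ}
    (h0 : ∀ l, 0 ≤ ρ l) (h1 : ∑ l, ρ l = 1) (q : ℝ) (y : ℕ → ℝ)
    (hq : ∀ l : Fin (A + 1), (l : ℕ) < A → ρ l * y l ^ 2 = q)
    (dec : (E → ℕ) → Γ) (t : ℕ) (Y : Finset V) (hY : ∀ v ∈ Y, k v + t < A) :
    q ^ Y.card * ∑ G, ∑ ω : E → Fin (A + 1), wt ρ ω *
        (if dec (mv φ k t G Y fun x => ω x) = G then (1:ℝ) else 0) ≤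
      (∏ v ∈ Y, y (k v + t)) ^ 2 := by
  classical
  have hG : ∀ G, q ^ Y.card * ∑ ω : E → Fin (A + 1), wt ρ ω *
        (if dec (mv φ k t G Y fun x => ω x) = G then (1:ℝ) else 0) ≤
      (∏ v ∈ Y, y (k v + t)) ^ 2 * ∑ Z : E → Fin (A + 1), wt ρ Z *
        (if dec (fun x => Z x) = G then (1:ℝ) else 0) := by
    intro G
    let β : E → Fin (A + 1) := fun x => ⟨min (kE φ k G x + t) A, by omega⟩
    have hβ : ∀ v ∈ Y, (β (φ G v) : ℕ) = k v + t := fun v hv => by
      have := hY v hv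
      simp only [β, kE_apply]
      omega
    have hm := move_bound h0 h1 (Y.map (φ G)) β
      (fun Z => if dec (fun x => Z x) = G then (1:ℝ) else 0) (fun Z => by split_ifs <;> simp)
    have e1 : ∀ ω : E → Fin (A + 1), (mv φ k t G Y fun x => (ω x : ℕ)) =
        fun x => ((if x ∈ Y.map (φ G) then β x else ω x : Fin (A + 1)) : ℕ) := by
      intro ω
      funext x
      simp only [mv]
      split_ifs with hx
      · obtain ⟨v, hv, rfl⟩ := Finset.mem_map.1 hx
        rw [hβ v hv, kE_apply]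
      · rfl
    have e2 : q ^ Y.card = (∏ v ∈ Y, y (k v + t)) ^ 2 * ∏ x ∈ Y.map (φ G), ρ (β x) := by
      rw [Finset.prod_map, ← Finset.prod_pow, ← Finset.prod_mul_distrib, ← Finset.prod_const]
      refine Finset.prod_congr rfl fun v hv => ?_
      rw [← hq (β (φ G v)) (by rw [hβ v hv]; exact hY v hv), hβ v hv, mul_comm]
    simp only [e1]
    rw [e2, mul_assoc]
    refine mul_le_mul_of_nonneg_left ?_ (sq_nonneg _)
    rw [mul_comm]
    exact hm
  rw [Finset.mul_sum]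
  refine (Finset.sum_le_sum fun G _ => hG G).trans ?_
  rw [← Finset.mul_sum, Finset.sum_comm]
  have : ∑ Z : E → Fin (A + 1), ∑ G, wt ρ Z * (if dec (fun x => Z x) = G then (1:ℝ) else 0) = 1 := by
    refine Eq.trans (Finset.sum_congr rfl fun Z _ => ?_) (sum_wt (E := E) h1)
    rw [← Finset.mul_sum]
    simp
  rw [this, mul_one]

open Classical in
/-- abstract form of the key lemma -/
lemma key_abstract [Nonempty Γ] (φ : Γ → V ↪ E) (q : ℝ) (hq0 : 0 ≤ q)
    (hsp : ∀ (I : Finset V) (U : Finset E),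
      ((univ.filter fun π => I.map (φ π) = U).card : ℝ) ≤ 2 * q ^ I.card * Fintype.card Γ)
    (k : V → ℕ) {L c : ℕ → ℝ} (hL0 : ∀ j, 0 < L j)
    (hL : ∀ j, 3 * L (j + 1) ≤ L j) (hc0 : ∀ l, 0 ≤ c l) (hc : ∀ l, c l ≤ 2 ^ l / 4)
    (N x : ℕ → ℝ) (hN0 : ∑ v, L (k v) * 2 ^ (k v) ≤ N 0)
    (hN : ∀ t (Y : Finset V), (Y.card : ℝ) ≤ x t →
      N t + ∑ v ∈ Y, L (k v) * 2 ^ (k v + t) ≤ N (t + 1))
    {A : ℕ} {ρ : Fin (A + 1) → ℝ} (h0 : ∀ l, 0 ≤ ρ l) (h1 : ∑ l, ρ l = 1)
    (y : ℕ → ℝ) (hy0 : ∀ l, 0 ≤ y l) (hy : Antitone y)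
    (hq : ∀ l : Fin (A + 1), (l : ℕ) < A → ρ l * y l ^ 2 = q) :
    ∑ ω : E → Fin (A + 1), wt ρ ω *
        (if ∀ G, N A < ∑ v, L (k v) * c (ω (φ G v)) then (1:ℝ) else 0) ≤
      ∑ t ∈ range A, 2 * (∑ Y : Finset V,
        if x t < Y.card then ∏ v ∈ Y, y (k v + t) else 0) ^ 2 := by
  obtain ⟨dec, hdec⟩ := exists_dec φ k L c
  let P : ℕ → Finset V → ℝ := fun t Y => ∏ v ∈ Y, y (k v + t)
  have hP0 : ∀ t Y, 0 ≤ P t Y := fun t Y => Finset.prod_nonneg fun _ _ => hy0 _
  let T : ℕ → Finset V → Finset V → Prop := fun t Y I =>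
    x t < Y.card ∧ I.card = Y.card ∧ (∀ v ∈ Y, k v + t < A) ∧ P t Y ≤ P t I
  let ind : ℕ → Finset V → Γ → (E → Fin (A + 1)) → ℝ := fun t Y G ω =>
    if dec t (mv φ k t G Y fun x => ω x) = G then 1 else 0
  have hind : ∀ t Y G ω, 0 ≤ ind t Y G ω := fun t Y G ω => by
    simp only [ind]; split_ifs <;> simp
  have hΓ : (0:ℝ) < Fintype.card Γ := by exact_mod_cast Fintype.card_pos
  -- pointwise bound
  have hpt : ∀ ω : E → Fin (A + 1),
      (if ∀ G, N A < ∑ v, L (k v) * c (ω (φ G v)) then (1:ℝ) else 0) ≤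
      ∑ t ∈ range A, ∑ Y : Finset V, ∑ I : Finset V,
        if T t Y I then 2 * (q ^ Y.card * ∑ G, ind t Y G ω) else 0 := by
    intro ω
    have hnn : ∀ t Y I, (0:ℝ) ≤ if T t Y I then 2 * (q ^ Y.card * ∑ G, ind t Y G ω) else 0 := by
      intro t Y I
      have : 0 ≤ ∑ G, ind t Y G ω := Finset.sum_nonneg fun G _ => hind _ _ _ _
      split_ifs
      · positivity
      · exact le_rfl
    split_ifs with hbad
    swap
    · exact Finset.sum_nonneg fun t _ => Finset.sum_nonneg fun Y _ =>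
        Finset.sum_nonneg fun I _ => hnn t Y I
    let f : Γ → ℕ → Finset V → Finset V → Γ → ℝ := fun π t Y I G =>
      (if I.map (φ π) = Y.map (φ G) then 1 else 0) * (if T t Y I then ind t Y G ω else 0)
    have hf0 : ∀ π t Y I G, 0 ≤ f π t Y I G := fun π t Y I G => by
      have := hind t Y G ω
      simp only [f]
      split_ifs <;> simp [this]
    have hπ : ∀ π : Γ, (1:ℝ) ≤ ∑ t ∈ range A, ∑ Y, ∑ I, ∑ G, f π t Y I G := by
      intro π
      obtain ⟨t, ht, G, hG1, hG2, hG3⟩ := det φ k hL0 hL hc0 hc N x hN0 hN dec hdec A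
        (fun e => ω e) (fun e => by have := (ω e).2; omega) hbad π
      obtain ⟨I, hI1, hI2⟩ := feas_pair φ k y hy0 hy π t _ G hG3
      have hT : T t (frag φ k t (fun e => ω e) G) I := by
        refine ⟨hG2, ?_, fun v hv => ?_, hI2⟩
        · rw [← Finset.card_map (φ π), hI1, Finset.card_map]
        · have h2 : k v + t < ω (φ G v) := by simpa [frag] using hv
          have := (ω (φ G v)).2
          omega
      have e : f π t (frag φ k t (fun e => ω e) G) I G = 1 := by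
        simp only [f, ind]
        rw [if_pos hI1, if_pos hT, if_pos hG1, mul_one]
      rw [← e]
      refine le_trans ?_ (Finset.single_le_sum (f := fun t => ∑ Y, ∑ I, ∑ G, f π t Y I G)
        (fun t _ => Finset.sum_nonneg fun Y _ => Finset.sum_nonneg fun I _ =>
          Finset.sum_nonneg fun G _ => hf0 _ _ _ _ _) (mem_range.2 ht))
      refine le_trans ?_ (Finset.single_le_sum (f := fun Y => ∑ I, ∑ G, f π t Y I G)
        (fun Y _ => Finset.sum_nonneg fun I _ =>
          Finset.sum_nonneg fun G _ => hf0 _ _ _ _ _) (mem_univ (frag φ k t (fun e => ω e) G)))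
      refine le_trans ?_ (Finset.single_le_sum (f := fun I => ∑ G, f π t _ I G)
        (fun I _ => Finset.sum_nonneg fun G _ => hf0 _ _ _ _ _) (mem_univ I))
      exact Finset.single_le_sum (f := fun G' => f π t (frag φ k t (fun e => ω e) G) I G')
        (fun G _ => hf0 _ _ _ _ _) (mem_univ G)
    have hsum : (Fintype.card Γ : ℝ) ≤ ∑ π, ∑ t ∈ range A, ∑ Y, ∑ I, ∑ G, f π t Y I G := by
      refine le_trans (le_of_eq ?_) (Finset.sum_le_sum fun π _ => hπ π)
      simp
    refine le_of_mul_le_mul_left ?_ hΓ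
    rw [mul_one]
    refine hsum.trans ?_
    rw [Finset.sum_comm, Finset.mul_sum]
    refine Finset.sum_le_sum fun t _ => ?_
    rw [Finset.sum_comm, Finset.mul_sum]
    refine Finset.sum_le_sum fun Y _ => ?_
    rw [Finset.sum_comm, Finset.mul_sum]
    refine Finset.sum_le_sum fun I _ => ?_
    rw [Finset.sum_comm]
    by_cases hT : T t Y I
    · rw [if_pos hT, Finset.mul_sum, Finset.mul_sum, Finset.mul_sum]
      refine Finset.sum_le_sum fun G _ => ?_
      simp only [f]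
      rw [if_pos hT, ← Finset.sum_mul, Finset.sum_boole]
      have h2 := hsp I (Y.map (φ G))
      rw [hT.2.1] at h2
      have h3 := hind t Y G ω
      nlinarith
    · simp only [f]
      simp [hT]
  refine (Finset.sum_le_sum fun ω _ =>
    mul_le_mul_of_nonneg_left (hpt ω) (wt_nonneg h0 ω)).trans ?_
  simp only [Finset.mul_sum]
  rw [Finset.sum_comm]
  refine Finset.sum_le_sum fun t _ => ?_
  rw [Finset.sum_comm, sq, Finset.sum_mul_sum, Finset.mul_sum]
  refine Finset.sum_le_sum fun Y _ => ?_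
  rw [Finset.sum_comm, Finset.mul_sum]
  refine Finset.sum_le_sum fun I _ => ?_
  by_cases hT : T t Y I
  · have h2 := decode_bound φ k h0 h1 q y hq (dec t) t Y hT.2.2.1
    have h3 : x t < I.card := by rw [hT.2.1]; exact hT.1
    rw [if_pos hT.1, if_pos h3]
    simp only [if_pos hT]
    have e : ∑ ω : E → Fin (A + 1), wt ρ ω * ∑ G, 2 * (q ^ Y.card * ind t Y G ω) =
        2 * (q ^ Y.card * ∑ G, ∑ ω : E → Fin (A + 1), wt ρ ω * ind t Y G ω) := by
      simp only [Finset.mul_sum]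
      rw [Finset.sum_comm]
      refine Finset.sum_congr rfl fun G _ => Finset.sum_congr rfl fun ω _ => ?_
      ring
    rw [e]
    have h4 := hT.2.2.2
    have h5 := hP0 t Y
    simp only [P] at h4 h5
    have h6 := mul_le_mul_of_nonneg_left h4 h5
    simp only [ind]
    nlinarith
  · simp only [if_neg hT, mul_zero, Finset.sum_const_zero]
    have := hP0 t Y
    have := hP0 t I
    simp only [P] at *
    split_ifs <;> positivity

end Crest.Agent.H0076
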