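import Crest.Agent.H0076.Prob

set_option autoImplicit false
open Finset

namespace Crest.Agent.H0076

variable {Γ V E : Type*} [Fintype V] [DecidableEq E]

/-- truncated cost of an element of block `k` sitting at level `l`, at time `t` -/
noncomputable def tau (L c : ℕ → ℝ) (t k l : ℕ) : ℝ :=
  if l ≤ k + t then L k * c l else L k * 2 ^ (k + t)

/-- truncated energy of a copy -/
noncomputable def en (φ : Γ → V ↪ E) (k : V → ℕ) (L c : ℕ → ℝ) (t : ℕ) (ω : E → ℕ) (G : Γ) : ℝ :=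
  ∑ v, tau L c t (k v) (ω (φ G v))

/-- the fragment of a copy at time `t` -/
def frag (φ : Γ → V ↪ E) (k : V → ℕ) (t : ℕ) (ω : E → ℕ) (G : Γ) : Finset V :=
  univ.filter fun v => k v + t < ω (φ G v)

/-- block index transported to the ground set -/
noncomputable def kE (φ : Γ → V ↪ E) (k : V → ℕ) (G : Γ) : E → ℕ :=
  Function.extend (φ G) k 0

omit [Fintype V] [DecidableEq E] in
lemma kE_apply (φ : Γ → V ↪ E) (k : V → ℕ) (G : Γ) (v : V) : kE φ k G (φ G v) = k v :=
  (φ G).injective.extend_apply _ _ _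

/-- move the image of `Y` to the capture level -/
noncomputable def mv (φ : Γ → V ↪ E) (k : V → ℕ) (t : ℕ) (G : Γ) (Y : Finset V) (ω : E → ℕ) :
    E → ℕ := fun x => if x ∈ Y.map (φ G) then kE φ k G x + t else ω x

def feas (φ : Γ → V ↪ E) (k : V → ℕ) (π : Γ) (t : ℕ) (ω : E → ℕ) (G : Γ) : Prop :=
  ∀ v, k v + t < ω (φ G v) → ∃ w, φ π w = φ G v ∧ k w ≤ k v

lemma cap_mono {L : ℕ → ℝ} (hL0 : ∀ j, 0 < L j) (hL : ∀ j, 3 * L (j + 1) ≤ L j) (t : ℕ)
    {i j : ℕ} (h : i < j) : L j * 2 ^ (j + t) ≤ 2 / 3 * (L i * 2 ^ (i + t)) := by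
  induction j, h using Nat.le_induction with
  | base =>
    have h1 := hL i
    have h2 : (0:ℝ) < 2 ^ (i + t) := by positivity
    have : (2:ℝ) ^ (i + 1 + t) = 2 * 2 ^ (i + t) := by ring
    simp only [Nat.succ_eq_add_one]
    rw [this]
    nlinarith
  | succ j _ ih =>
    have h1 := hL j
    have h2 : (0:ℝ) < 2 ^ (j + t) := by positivity
    have h3 := hL0 j
    have : (2:ℝ) ^ (j + 1 + t) = 2 * 2 ^ (j + t) := by ring
    rw [this]
    have : 0 < L j * 2 ^ (j + t) := by positivity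
    nlinarith

lemma tau_nonneg {L c : ℕ → ℝ} (hL0 : ∀ j, 0 < L j) (hc0 : ∀ l, 0 ≤ c l) (t k l : ℕ) :
    0 ≤ tau L c t k l := by
  unfold tau
  have := hL0 k
  have := hc0 l
  split_ifs <;> positivity

lemma tau_le {L c : ℕ → ℝ} (hL0 : ∀ j, 0 < L j) (hc : ∀ l, c l ≤ 2 ^ l / 4) (t k l : ℕ) :
    tau L c t k l ≤ L k * 2 ^ (k + t) := by
  unfold tau
  have := hL0 k
  split_ifs with h
  · refine mul_le_mul_of_nonneg_left ((hc l).trans ?_) this.le
    have h1 : (2:ℝ) ^ l ≤ 2 ^ (k + t) := pow_le_pow_right₀ (by norm_num) h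
    have h2 : (0:ℝ) < 2 ^ l := by positivity
    linarith
  · exact le_rfl

/-- the energy-minimising feasible copy can be replaced by the decoded one -/
lemma replace (φ : Γ → V ↪ E) (k : V → ℕ) {L c : ℕ → ℝ} (hL0 : ∀ j, 0 < L j)
    (hL : ∀ j, 3 * L (j + 1) ≤ L j) (hc0 : ∀ l, 0 ≤ c l) (hc : ∀ l, c l ≤ 2 ^ l / 4)
    (π : Γ) (t : ℕ) (ω : E → ℕ) (G D : Γ) (hG : feas φ k π t ω G)
    (hmin : ∀ G', feas φ k π t ω G' → en φ k L c t ω G ≤ en φ k L c t ω G')
    (hD0 : frag φ k t (mv φ k t G (frag φ k t ω G) ω) D = ∅)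
    (hD1 : en φ k L c t (mv φ k t G (frag φ k t ω G) ω) D ≤
      en φ k L c t (mv φ k t G (frag φ k t ω G) ω) G) :
    feas φ k π t ω D ∧ (frag φ k t ω D).card = (frag φ k t ω G).card ∧
      mv φ k t D (frag φ k t ω D) ω = mv φ k t G (frag φ k t ω G) ω := by
  classical
  set Y := frag φ k t ω G with hY
  set Z := mv φ k t G Y ω with hZ
  set U := Y.map (φ G) with hU
  have hYm : ∀ v, v ∈ Y ↔ k v + t < ω (φ G v) := fun v => by simp [hY, frag]
  have hZU : ∀ x ∈ U, Z x = kE φ k G x + t := fun x hx => by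
    simp only [hZ, mv]; rw [if_pos hx]
  have hZn : ∀ x, x ∉ U → Z x = ω x := fun x hx => by
    simp only [hZ, mv]; rw [if_neg hx]
  have hcap : ∀ v, Z (φ D v) ≤ k v + t := fun v => by
    by_contra h
    have : v ∈ frag φ k t Z D := by simp [frag]; omega
    rw [hD0] at this
    simp at this
  have hUω : ∀ x ∈ U, kE φ k G x + t < ω x := fun x hx => by
    obtain ⟨u, hu, rfl⟩ := Finset.mem_map.1 hx
    rw [kE_apply]; exact (hYm u).1 hu
  have hin : ∀ v, k v + t < ω (φ D v) → φ D v ∈ U := fun v hv => by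
    by_contra h
    have := hcap v
    rw [hZn _ h] at this
    omega
  have hle : ∀ v, φ D v ∈ U → kE φ k G (φ D v) ≤ k v := fun v hv => by
    have := hcap v
    rw [hZU _ hv] at this
    omega
  have hfeas : feas φ k π t ω D := fun v hv => by
    have h1 := hin v hv
    have h2 := hle v h1
    obtain ⟨u, hu, hu'⟩ := Finset.mem_map.1 h1
    obtain ⟨w, hw, hw'⟩ := hG u ((hYm u).1 hu)
    rw [← hu', kE_apply] at h2
    exact ⟨w, hw.trans hu', hw'.trans h2⟩
  -- the gain of moving an element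
  let δ : E → ℝ := fun x => L (kE φ k G x) * 2 ^ (kE φ k G x + t) -
    L (kE φ k G x) * c (kE φ k G x + t)
  have hδ : ∀ x, 3 / 4 * (L (kE φ k G x) * 2 ^ (kE φ k G x + t)) ≤ δ x := fun x => by
    have h1 := hc (kE φ k G x + t)
    have h2 := hL0 (kE φ k G x)
    simp only [δ]
    nlinarith
  have hδ0 : ∀ x, 0 < L (kE φ k G x) * 2 ^ (kE φ k G x + t) := fun x => by
    have h2 := hL0 (kE φ k G x)
    positivity
  have eG : en φ k L c t ω G - en φ k L c t Z G = ∑ x ∈ U, δ x := by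
    rw [hU, Finset.sum_map, en, en, ← Finset.sum_sub_distrib, ← Finset.sum_subset (subset_univ Y)]
    · refine Finset.sum_congr rfl fun v hv => ?_
      have h1 : φ G v ∈ U := Finset.mem_map_of_mem _ hv
      have h2 := (hYm v).1 hv
      rw [hZU _ h1]
      simp only [δ, kE_apply, tau]
      rw [if_neg (by omega), if_pos le_rfl]
    · intro v _ hv
      have h1 : φ G v ∉ U := by simpa [hU] using hv
      rw [hZn _ h1, sub_self]
  -- the gain for `D`
  let ε : E → ℝ := fun x => if x ∈ univ.map (φ D) then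
    tau L c t (kE φ k D x) (ω x) - tau L c t (kE φ k D x) (Z x) else 0
  have eD : en φ k L c t ω D - en φ k L c t Z D = ∑ x ∈ U, ε x := by
    have e1 : en φ k L c t ω D - en φ k L c t Z D = ∑ x ∈ univ.map (φ D), ε x := by
      rw [Finset.sum_map, en, en, ← Finset.sum_sub_distrib]
      refine Finset.sum_congr rfl fun v _ => ?_
      simp only [ε]
      rw [if_pos (Finset.mem_map_of_mem _ (mem_univ v)), kE_apply]
    rw [e1]
    have e2 : ∑ x ∈ univ.map (φ D), ε x = ∑ x ∈ univ.map (φ D) ∩ U, ε x := by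
      refine (Finset.sum_subset inter_subset_left fun x hx hx' => ?_).symm
      have : x ∉ U := fun h => hx' (mem_inter.2 ⟨hx, h⟩)
      simp only [ε]
      rw [if_pos hx, hZn _ this, sub_self]
    rw [e2]
    refine Finset.sum_subset inter_subset_right fun x hx hx' => ?_
    have : x ∉ univ.map (φ D) := fun h => hx' (mem_inter.2 ⟨h, hx⟩)
    simp only [ε]
    rw [if_neg this]
  have hgood : ∀ x ∈ U, (x ∈ univ.map (φ D) ∧ kE φ k D x = kE φ k G x) → ε x = δ x := by
    rintro x hx ⟨h1, h2⟩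
    have h3 := hUω x hx
    simp only [ε, δ]
    rw [if_pos h1, h2, hZU x hx, tau, tau, if_neg (by omega), if_pos le_rfl]
  have hbad : ∀ x ∈ U, ¬ (x ∈ univ.map (φ D) ∧ kE φ k D x = kE φ k G x) → ε x < δ x := by
    intro x hx hn
    have h1 := hδ x
    have h2 := hδ0 x
    by_cases h3 : x ∈ univ.map (φ D)
    · obtain ⟨v, -, rfl⟩ := Finset.mem_map.1 h3
      have h4 := hle v hx
      have h5 : kE φ k G (φ D v) < k v := by
        refine lt_of_le_of_ne h4 fun h => hn ⟨h3, ?_⟩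
        rw [kE_apply, h]
      have h6 := cap_mono hL0 hL t h5
      have h7 := tau_le hL0 hc t (k v) (ω (φ D v))
      have h8 := tau_nonneg hL0 hc0 t (k v) (Z (φ D v))
      simp only [ε]
      rw [if_pos h3, kE_apply]
      linarith
    · simp only [ε]
      rw [if_neg h3]
      linarith
  have hall : ∀ x ∈ U, x ∈ univ.map (φ D) ∧ kE φ k D x = kE φ k G x := by
    by_contra hne
    push Not at hne
    obtain ⟨x, hx, hx'⟩ := hne
    have hlt : ∑ x ∈ U, ε x < ∑ x ∈ U, δ x := by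
      refine Finset.sum_lt_sum (fun x hx => ?_) ⟨x, hx, hbad x hx fun h => hx' h.1 h.2⟩
      by_cases h : x ∈ univ.map (φ D) ∧ kE φ k D x = kE φ k G x
      · exact (hgood x hx h).le
      · exact (hbad x hx h).le
    have := hmin D hfeas
    linarith
  have hmap : (frag φ k t ω D).map (φ D) = U := by
    ext x
    constructor
    · intro hx
      obtain ⟨v, hv, rfl⟩ := Finset.mem_map.1 hx
      exact hin v (by simpa [frag] using hv)
    · intro hx
      obtain ⟨h1, h2⟩ := hall x hx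
      obtain ⟨v, -, rfl⟩ := Finset.mem_map.1 h1
      refine Finset.mem_map_of_mem _ ?_
      have h3 := hUω _ hx
      rw [← h2, kE_apply] at h3
      simpa [frag] using h3
  refine ⟨hfeas, ?_, ?_⟩
  · rw [← Finset.card_map (φ D), hmap, hU, Finset.card_map]
  · funext x
    by_cases hx : x ∈ U
    · rw [hZU x hx]
      simp only [mv]
      rw [hmap, if_pos hx, (hall x hx).2]
    · rw [hZn x hx]
      simp only [mv]
      rw [hmap, if_neg hx]

omit [DecidableEq E] in
lemma en_succ_le (φ : Γ → V ↪ E) (k : V → ℕ) {L c : ℕ → ℝ} (hL0 : ∀ j, 0 < L j)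
    (hc : ∀ l, c l ≤ 2 ^ l / 4) (t : ℕ) (ω : E → ℕ) (G : Γ) :
    en φ k L c (t + 1) ω G ≤
      en φ k L c t ω G + ∑ v ∈ frag φ k t ω G, L (k v) * 2 ^ (k v + t) := by
  rw [frag, Finset.sum_filter, en, en, ← Finset.sum_add_distrib]
  refine Finset.sum_le_sum fun v _ => ?_
  by_cases h : k v + t < ω (φ G v)
  · rw [if_pos h]
    have h1 := tau_le hL0 hc (t + 1) (k v) (ω (φ G v))
    have h2 : tau L c t (k v) (ω (φ G v)) = L (k v) * 2 ^ (k v + t) := by
      rw [tau, if_neg (by omega)]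
    have h3 : (2:ℝ) ^ (k v + (t + 1)) = 2 * 2 ^ (k v + t) := by ring
    rw [h3] at h1
    linarith
  · rw [if_neg h, tau, tau, if_pos (by omega), if_pos (by omega)]
    simp

/-- the deterministic part: every bad configuration has, relative to every reference copy, a
large self-decoding fragment -/
lemma det [Fintype Γ] (φ : Γ → V ↪ E) (k : V → ℕ) {L c : ℕ → ℝ} (hL0 : ∀ j, 0 < L j)
    (hL : ∀ j, 3 * L (j + 1) ≤ L j) (hc0 : ∀ l, 0 ≤ c l) (hc : ∀ l, c l ≤ 2 ^ l / 4)
    (N x : ℕ → ℝ) (hN0 : ∑ v, L (k v) * 2 ^ (k v) ≤ N 0)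
    (hN : ∀ t (Y : Finset V), (Y.card : ℝ) ≤ x t →
      N t + ∑ v ∈ Y, L (k v) * 2 ^ (k v + t) ≤ N (t + 1))
    (dec : ℕ → (E → ℕ) → Γ)
    (hdec : ∀ t Z G, frag φ k t Z G = ∅ → frag φ k t Z (dec t Z) = ∅ ∧
      en φ k L c t Z (dec t Z) ≤ en φ k L c t Z G)
    (A : ℕ) (ω : E → ℕ) (hω : ∀ e, ω e ≤ A)
    (hbad : ∀ G, N A < ∑ v, L (k v) * c (ω (φ G v))) (π : Γ) :
    ∃ t < A, ∃ G, dec t (mv φ k t G (frag φ k t ω G) ω) = G ∧
      x t < (frag φ k t ω G).card ∧ feas φ k π t ω G := by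
  classical
  let P : ℕ → Prop := fun t => ∃ G, feas φ k π t ω G ∧ en φ k L c t ω G ≤ N t
  have hP0 : P 0 := by
    refine ⟨π, fun v _ => ⟨v, rfl, le_rfl⟩, le_trans ?_ hN0⟩
    refine Finset.sum_le_sum fun v _ => ?_
    simpa using tau_le hL0 hc 0 (k v) (ω (φ π v))
  have hPA : ¬ P A := by
    rintro ⟨G, -, hG⟩
    have h1 := hbad G
    have h2 : en φ k L c A ω G = ∑ v, L (k v) * c (ω (φ G v)) := by
      refine Finset.sum_congr rfl fun v _ => ?_
      have := hω (φ G v)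
      rw [tau, if_pos (by omega)]
    linarith
  obtain ⟨t, htA, ht, ht'⟩ : ∃ t < A, P t ∧ ¬ P (t + 1) := by
    by_contra hne
    push Not at hne
    have : ∀ t ≤ A, P t := by
      intro t
      induction t with
      | zero => exact fun _ => hP0
      | succ t ih => exact fun h => hne t (by omega) (ih (by omega))
    exact hPA (this A le_rfl)
  obtain ⟨G0, hG0, hG0'⟩ := ht
  obtain ⟨G, hG, hmin⟩ := Finset.exists_min_image (univ.filter fun G => feas φ k π t ω G)
    (en φ k L c t ω) ⟨G0, by simpa using hG0⟩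
  simp only [mem_filter, mem_univ, true_and] at hG hmin
  have hGN : en φ k L c t ω G ≤ N t := (hmin G0 hG0).trans hG0'
  have hbig : x t < (frag φ k t ω G).card := by
    by_contra hle
    push Not at hle
    refine ht' ⟨G, fun v hv => hG v (by omega), ?_⟩
    have h1 := en_succ_le φ k hL0 hc t ω G
    have h2 := hN t _ hle
    linarith
  have hemp : frag φ k t (mv φ k t G (frag φ k t ω G) ω) G = ∅ := by
    rw [frag, Finset.filter_eq_empty_iff]
    intro v _
    simp only [mv]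
    split_ifs with h
    · rw [kE_apply]; omega
    · simpa [frag] using h
  obtain ⟨hD0, hD1⟩ := hdec t _ G hemp
  obtain ⟨h1, h2, h3⟩ := replace φ k hL0 hL hc0 hc π t ω G _ hG hmin hD0 hD1
  refine ⟨t, htA, dec t (mv φ k t G (frag φ k t ω G) ω), ?_, ?_, h1⟩
  · rw [h3]
  · rw [h2]; exact hbig

omit [DecidableEq E] in
lemma exists_dec [Fintype Γ] [Nonempty Γ] (φ : Γ → V ↪ E) (k : V → ℕ) (L c : ℕ → ℝ) :
    ∃ dec : ℕ → (E → ℕ) → Γ, ∀ t Z G, frag φ k t Z G = ∅ → frag φ k t Z (dec t Z) = ∅ ∧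
      en φ k L c t Z (dec t Z) ≤ en φ k L c t Z G := by
  classical
  have : ∀ t Z, ∃ D : Γ, ∀ G, frag φ k t Z G = ∅ → frag φ k t Z D = ∅ ∧
      en φ k L c t Z D ≤ en φ k L c t Z G := by
    intro t Z
    by_cases h : ∃ G, frag φ k t Z G = ∅
    · obtain ⟨G0, hG0⟩ := h
      obtain ⟨D, hD, hmin⟩ := Finset.exists_min_image (univ.filter fun G => frag φ k t Z G = ∅)
        (en φ k L c t Z) ⟨G0, by simpa using hG0⟩
      simp only [mem_filter, mem_univ, true_and] at hD hmin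
      exact ⟨D, fun G hG => ⟨hD, hmin G hG⟩⟩
    · exact ⟨Classical.arbitrary Γ, fun G hG => (h ⟨G, hG⟩).elim⟩
  choose dec hdec using this
  exact ⟨dec, hdec⟩

end Crest.Agent.H0076
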