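import Mathlib

set_option autoImplicit false
open Finset

namespace Crest.Agent.H0076

lemma min_le_step {u : ℝ} (hu : 0 < u) :
    min u u⁻¹ ≤ 6 * (2 * u / (1 + 2 * u)) - 6 * (u / (1 + u)) := by
  have e : 6 * (2 * u / (1 + 2 * u)) - 6 * (u / (1 + u)) = 6 * u / ((1 + 2 * u) * (1 + u)) := by
    field_simp; ring
  rw [e, le_div_iff₀ (by positivity)]
  rcases le_total u 1 with h | h
  · have : min u u⁻¹ ≤ u := min_le_left _ _
    have h2 : (1 + 2 * u) * (1 + u) ≤ 6 := by nlinarith
    calc min u u⁻¹ * ((1 + 2 * u) * (1 + u)) ≤ u * ((1 + 2 * u) * (1 + u)) := by gcongr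
      _ ≤ u * 6 := by gcongr
      _ = 6 * u := by ring
  · have : min u u⁻¹ ≤ u⁻¹ := min_le_right _ _
    have h2 : (1 + 2 * u) * (1 + u) ≤ 6 * u * u := by nlinarith
    calc min u u⁻¹ * ((1 + 2 * u) * (1 + u)) ≤ u⁻¹ * ((1 + 2 * u) * (1 + u)) := by gcongr
      _ ≤ u⁻¹ * (6 * u * u) := by gcongr
      _ = 6 * u := by field_simp

lemma sum_min_le {s : ℝ} (hs : 0 < s) (n : ℕ) :
    ∑ l ∈ range n, min (s * 2 ^ l) (s * 2 ^ l)⁻¹ ≤ 6 := by
  have : ∑ l ∈ range n, min (s * 2 ^ l) (s * 2 ^ l)⁻¹ ≤ 6 * (s * 2 ^ n / (1 + s * 2 ^ n)) := by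
    induction n with
    | zero => simp only [range_zero, sum_empty]; positivity
    | succ n ih =>
      rw [Finset.sum_range_succ]
      have h1 := min_le_step (u := s * 2 ^ n) (by positivity)
      have e : s * 2 ^ (n + 1) = 2 * (s * 2 ^ n) := by ring
      rw [e]
      linarith
  refine this.trans ?_
  have h : s * 2 ^ n / (1 + s * 2 ^ n) ≤ 1 := by
    rw [div_le_one (by positivity)]; linarith
  linarith

lemma sum_prod_le_exp {V : Type*} [Fintype V] [DecidableEq V] (y : V → ℝ) (hy : ∀ v, 0 ≤ y v) :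
    ∑ Y : Finset V, ∏ v ∈ Y, y v ≤ Real.exp (∑ v, y v) := by
  have := Finset.prod_one_add (s := (univ : Finset V)) (f := y)
  rw [Finset.powerset_univ] at this
  rw [← this, Real.exp_sum]
  refine Finset.prod_le_prod (fun v _ => by linarith [hy v]) fun v _ => ?_
  linarith [Real.add_one_le_exp (y v)]

lemma chernoff {V : Type*} [Fintype V] [DecidableEq V] (y : V → ℝ) (hy : ∀ v, 0 ≤ y v) {x : ℝ}
    (hx : 0 < x) (hX : ∑ v, y v ≤ x / 64) :
    ∑ Y : Finset V, (if x < Y.card then ∏ v ∈ Y, y v else 0) ≤ min x x⁻¹ / 5 := by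
  have hP : ∀ Y : Finset V, 0 ≤ ∏ v ∈ Y, y v := fun Y => Finset.prod_nonneg fun v _ => hy v
  have hX0 : 0 ≤ ∑ v, y v := Finset.sum_nonneg fun v _ => hy v
  rcases le_total x 1 with h | h
  · have hm : min x x⁻¹ = x := min_eq_left (h.trans (one_le_inv₀ hx |>.2 h))
    rw [hm]
    have h1 : ∑ Y : Finset V, (if x < Y.card then ∏ v ∈ Y, y v else 0) ≤
        ∑ Y : Finset V, ((∏ v ∈ Y, y v) - if Y = ∅ then 1 else 0) := by
      refine Finset.sum_le_sum fun Y _ => ?_
      by_cases hY : Y = ∅
      · subst hY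
        rw [if_neg (by simpa using hx.le)]
        simp
      · rw [if_neg hY]
        have := hP Y
        split_ifs <;> linarith
    rw [Finset.sum_sub_distrib] at h1
    simp only [Finset.sum_ite_eq', mem_univ, if_true] at h1
    have h2 := sum_prod_le_exp y hy
    have h3 := Real.abs_exp_sub_one_le (x := ∑ v, y v) (by rw [abs_of_nonneg hX0]; linarith)
    rw [abs_of_nonneg hX0] at h3
    have h4 := le_abs_self (Real.exp (∑ v, y v) - 1)
    linarith
  · have hm : min x x⁻¹ = x⁻¹ := min_eq_right ((inv_le_one_of_one_le₀ h).trans h)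
    rw [hm]
    have he : Real.exp 2 ≤ 8 := by
      have := Real.exp_one_lt_d9
      have e : Real.exp 2 = Real.exp 1 * Real.exp 1 := by rw [← Real.exp_add]; norm_num
      have := Real.exp_pos 1
      nlinarith
    have h1 : ∑ Y : Finset V, (if x < Y.card then ∏ v ∈ Y, y v else 0) ≤
        ∑ Y : Finset V, Real.exp (-(2 * x)) * ∏ v ∈ Y, (Real.exp 2 * y v) := by
      refine Finset.sum_le_sum fun Y _ => ?_
      rw [Finset.prod_mul_distrib, Finset.prod_const, ← Real.exp_nat_mul, ← mul_assoc,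
        ← Real.exp_add]
      have := hP Y
      split_ifs with hY
      · have : 1 ≤ Real.exp (-(2 * x) + Y.card * 2) := Real.one_le_exp (by linarith)
        nlinarith
      · positivity
    rw [← Finset.mul_sum] at h1
    have h2 := sum_prod_le_exp (fun v => Real.exp 2 * y v) fun v => by
      have := hy v; positivity
    rw [← Finset.mul_sum] at h2
    have h3 : Real.exp (Real.exp 2 * ∑ v, y v) ≤ Real.exp (x / 8) :=
      Real.exp_le_exp.2 (by nlinarith)
    have h4 : Real.exp (-(2 * x)) * Real.exp (x / 8) ≤ x⁻¹ / 5 := by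
      rw [← Real.exp_add, le_div_iff₀ (by norm_num), le_inv_comm₀ (by positivity) hx]
      have e : (Real.exp (-(2 * x) + x / 8) * 5)⁻¹ = Real.exp 1 * Real.exp (15 * x / 8 - 1) / 5 := by
        rw [← Real.exp_add, mul_inv, ← Real.exp_neg]
        rw [div_eq_mul_inv _ (5:ℝ)]
        congr 2
        ring
      rw [e]
      have h5 := Real.add_one_le_exp (15 * x / 8 - 1)
      have h6 := Real.exp_one_gt_d9
      nlinarith
    calc _ ≤ _ := h1
      _ ≤ Real.exp (-(2 * x)) * Real.exp (x / 8) := by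
        gcongr; exact h2.trans h3
      _ ≤ _ := h4

lemma pow_seven_le {u : ℝ} (hu : 0 ≤ u) : u ^ 7 ≤ Real.exp (3 * u) := by
  have h1 : u ≤ Real.exp (3 * u / 7) := by
    have e : Real.exp (3 * u / 7) = Real.exp 1 * Real.exp (3 * u / 7 - 1) := by
      rw [← Real.exp_add]; congr 1; ring
    have h5 := Real.add_one_le_exp (3 * u / 7 - 1)
    have h6 := Real.exp_one_gt_d9
    rw [e]
    nlinarith
  calc u ^ 7 ≤ Real.exp (3 * u / 7) ^ 7 := by gcongr
    _ = _ := by rw [← Real.exp_nat_mul]; congr 1; push_cast; ring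

lemma exists_levels (pp : ℕ → ℝ) (h0 : ∀ l, 0 ≤ pp l) (h1 : ∃ l, 1 ≤ pp l) :
    ∃ (A : ℕ) (ρ : Fin (A + 1) → ℝ), (∀ l, 0 ≤ ρ l) ∧ ∑ l, ρ l = 1 ∧ (∀ l, ρ l ≤ pp l) ∧
      ∀ l : Fin (A + 1), (l : ℕ) < A → ρ l = pp l := by
  classical
  have hex : ∃ n, 1 ≤ ∑ l ∈ range (n + 1), pp l := by
    obtain ⟨l, hl⟩ := h1
    exact ⟨l, hl.trans (Finset.single_le_sum (fun i _ => h0 i) (by simp))⟩
  set A := Nat.find hex with hA
  have hA1 : 1 ≤ ∑ l ∈ range (A + 1), pp l := Nat.find_spec hex
  have hA2 : ∑ l ∈ range A, pp l ≤ 1 := by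
    rcases Nat.eq_zero_or_pos A with h | h
    · rw [h]; simp
    · have := Nat.find_min hex (m := A - 1) (by omega)
      rw [Nat.sub_add_cancel h] at this
      linarith
  rw [Finset.sum_range_succ] at hA1
  refine ⟨A, fun l => if (l : ℕ) < A then pp l else 1 - ∑ l ∈ range A, pp l, fun l => ?_, ?_,
    fun l => ?_, fun l hl => if_pos hl⟩
  · dsimp only
    split_ifs
    · exact h0 _
    · linarith
  · rw [Fin.sum_univ_castSucc]
    simp only [Fin.val_castSucc, Fin.is_lt, if_true, Fin.val_last, lt_irrefl, if_false]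
    rw [Fin.sum_univ_eq_sum_range]
    ring
  · dsimp only
    split_ifs with h
    · exact le_rfl
    · have : (l : ℕ) = A := by have := l.2; omega
      rw [this]; linarith

/-- decomposition of a probability vector into blocks of geometric size -/
lemma blocks {V : Type*} [Fintype V] [DecidableEq V] (lam : V → ℝ) (h0 : ∀ v, 0 ≤ lam v)
    (h1 : ∑ v, lam v ≤ 1) :
    ∃ (k : V → ℕ) (L : ℕ → ℝ), (∀ j, 0 < L j) ∧ (∀ j, 3 * L (j + 1) ≤ L j) ∧
      (∀ j, (univ.filter fun v => k v = j).card ≤ 4 ^ (j + 1)) ∧ (∀ v, lam v ≤ L (k v)) ∧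
      ∀ K, ∑ j ∈ range K, 4 ^ (j + 1) * L j ≤ 40 := by
  classical
  let r : V → ℕ := fun v => (univ.filter fun w => lam v ≤ lam w).card
  let k : V → ℕ := fun v => Nat.log 4 (r v)
  have hr : ∀ v, r v ≠ 0 := fun v => Finset.card_ne_zero.2 ⟨v, by simp⟩
  have hk1 : ∀ v, 4 ^ k v ≤ r v := fun v => Nat.pow_log_le_self 4 (hr v)
  have hk2 : ∀ v, r v < 4 ^ (k v + 1) := fun v => Nat.lt_pow_succ_log_self (by norm_num) _
  have hmono : ∀ v w, lam v ≤ lam w → k w ≤ k v := fun v w h => by
    refine Nat.log_mono_right (Finset.card_le_card fun z hz => ?_)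
    simp only [mem_filter, mem_univ, true_and] at hz ⊢
    exact h.trans hz
  have hcard : ∀ j, (univ.filter fun v => k v ≤ j).card ≤ 4 ^ (j + 1) := by
    intro j
    rcases (univ.filter fun v => k v ≤ j).eq_empty_or_nonempty with h | h
    · rw [h]; simp
    · obtain ⟨v, hv, hmin⟩ := Finset.exists_min_image _ lam h
      have h2 : (univ.filter fun v => k v ≤ j).card ≤ r v :=
        Finset.card_le_card fun z hz => by simpa using hmin z hz
      have h3 : 4 ^ (k v + 1) ≤ 4 ^ (j + 1) :=
        Nat.pow_le_pow_right (by norm_num) (by simpa using hv)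
      have := hk2 v
      omega
  let g : ℕ → ℕ → ℝ := fun j i => if j ≤ i + 1 then 4 / 3 * (3 / 4) ^ i * (1 / 3) ^ j else 0
  have hg0 : ∀ j i, 0 ≤ g j i := fun j i => by simp only [g]; split_ifs <;> positivity
  refine ⟨k, fun j => ∑ w, lam w * g j (k w) + (1 / 8) ^ j, fun j => ?_, fun j => ?_,
    fun j => ?_, fun v => ?_, fun K => ?_⟩
  · have : 0 ≤ ∑ w, lam w * g j (k w) := Finset.sum_nonneg fun w _ => mul_nonneg (h0 w) (hg0 _ _)
    positivity
  · dsimp only
    rw [mul_add, Finset.mul_sum]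
    refine add_le_add (Finset.sum_le_sum fun w _ => ?_) ?_
    · rw [mul_left_comm]
      refine mul_le_mul_of_nonneg_left ?_ (h0 w)
      have := hg0 j (k w)
      simp only [g] at this ⊢
      split_ifs at this ⊢ with ha hb hb
      · rw [pow_succ]; linarith
      · omega
      · linarith
      · simp
    · rw [pow_succ]
      have : (0:ℝ) < (1 / 8) ^ j := by positivity
      linarith
  · refine le_trans (Finset.card_le_card fun v hv => ?_) (hcard j)
    simp only [mem_filter, mem_univ, true_and] at hv ⊢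
    exact hv.le
  · dsimp only
    have hp : (0:ℝ) < (1 / 8) ^ k v := by positivity
    let S := univ.filter fun w => lam v ≤ lam w ∧ k v ≤ k w + 1
    have hS : 3 * 4 ^ k v ≤ 4 * S.card := by
      have h2 : r v ≤ S.card + (univ.filter fun w => k w + 2 ≤ k v).card := by
        refine le_trans (Finset.card_le_card fun w hw => ?_) (Finset.card_union_le _ _)
        simp only [S, mem_filter, mem_univ, true_and, mem_union] at hw ⊢
        by_cases h : k v ≤ k w + 1
        · exact Or.inl ⟨hw, h⟩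
        · exact Or.inr (by omega)
      have h3 : 4 * (univ.filter fun w => k w + 2 ≤ k v).card ≤ 4 ^ k v := by
        rcases Nat.lt_or_ge (k v) 2 with h | h
        · rw [Finset.filter_eq_empty_iff.2 fun w _ => by omega]; simp
        · obtain ⟨m, hm⟩ := Nat.exists_eq_add_of_le' h
          have h4 := hcard m
          have e : (univ.filter fun w => k w + 2 ≤ k v) = univ.filter fun w => k w ≤ m := by
            ext w; simp only [mem_filter, mem_univ, true_and]; omega
          rw [e, hm, pow_succ 4 (m + 1)]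
          omega
      have := hk1 v
      omega
    have hS' : (3:ℝ) * 4 ^ k v ≤ 4 * S.card := by exact_mod_cast hS
    have h5 : ∑ w ∈ S, lam v * (4 / 3 * (1 / 4) ^ k v) ≤ ∑ w, lam w * g (k v) (k w) := by
      refine le_trans (Finset.sum_le_sum fun w hw => ?_) (Finset.sum_le_sum_of_subset_of_nonneg
        (subset_univ S) fun w _ _ => mul_nonneg (h0 w) (hg0 _ _))
      obtain ⟨ha, hb⟩ := (mem_filter.1 hw).2
      refine mul_le_mul ha ?_ (by positivity) (h0 w)
      simp only [g]
      rw [if_pos hb]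
      have hc : ((3:ℝ) / 4) ^ k v ≤ (3 / 4) ^ k w :=
        pow_le_pow_of_le_one (by norm_num) (by norm_num) (hmono v w ha)
      have e : ((1:ℝ) / 4) ^ k v = (3 / 4) ^ k v * (1 / 3) ^ k v := by
        rw [← mul_pow]; norm_num
      rw [e, ← mul_assoc]
      gcongr
    rw [Finset.sum_const, nsmul_eq_mul] at h5
    have h6 : (4:ℝ) ^ k v * (1 / 4) ^ k v = 1 := by rw [← mul_pow]; norm_num
    have h7 : (1:ℝ) ≤ S.card * (4 / 3 * (1 / 4) ^ k v) := by
      have : (0:ℝ) < (1 / 4) ^ k v := by positivity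
      nlinarith
    have := h0 v
    nlinarith
  · dsimp only
    simp only [mul_add, Finset.sum_add_distrib]
    have ha : ∑ j ∈ range K, (4:ℝ) ^ (j + 1) * (1 / 8) ^ j ≤ 8 := by
      have : ∑ j ∈ range K, (4:ℝ) ^ (j + 1) * (1 / 8) ^ j = 8 - 8 * (1 / 2) ^ K := by
        induction K with
        | zero => simp
        | succ K ih =>
          rw [Finset.sum_range_succ, ih]
          have : (4:ℝ) ^ (K + 1) * (1 / 8) ^ K = 4 * (1 / 2) ^ K := by
            rw [pow_succ, mul_right_comm, ← mul_pow]; norm_num [mul_comm]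
          rw [this]; ring
      rw [this]
      have : (0:ℝ) < (1 / 2) ^ K := by positivity
      linarith
    have hb : ∀ i, ∑ j ∈ range K, (4:ℝ) ^ (j + 1) * g j i ≤ 32 := by
      intro i
      have h2 : ∀ K, ∑ j ∈ range K, (4:ℝ) ^ (j + 1) * g j i ≤
          16 * (3 / 4) ^ i * (4 / 3) ^ (min K (i + 2)) := by
        intro K
        induction K with
        | zero => simp only [range_zero, sum_empty]; positivity
        | succ K ih =>
          rw [Finset.sum_range_succ]
          by_cases h : K ≤ i + 1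
          · rw [min_eq_left (by omega)] at ih
            rw [min_eq_left (by omega)]
            simp only [g] at ih ⊢
            rw [if_pos h]
            have e : (4:ℝ) ^ (K + 1) * (4 / 3 * (3 / 4) ^ i * (1 / 3) ^ K) =
                16 / 3 * (3 / 4) ^ i * (4 / 3) ^ K := by
              have : ((4:ℝ) / 3) ^ K = 4 ^ K * (1 / 3) ^ K := by rw [← mul_pow]; norm_num
              rw [this]; ring
            rw [e, pow_succ (4 / 3 : ℝ) K]
            linarith
          · rw [min_eq_right (by omega)] at ih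
            rw [min_eq_right (by omega)]
            simp only [g] at ih ⊢
            rw [if_neg h]
            linarith
      refine (h2 K).trans ?_
      have h3 : ((4:ℝ) / 3) ^ (min K (i + 2)) ≤ (4 / 3) ^ (i + 2) :=
        pow_le_pow_right₀ (by norm_num) (min_le_right _ _)
      have h4 : ((3:ℝ) / 4) ^ i * (4 / 3) ^ (i + 2) = 16 / 9 := by
        rw [pow_add, ← mul_assoc, ← mul_pow]; norm_num
      have h5 : (0:ℝ) < (3 / 4) ^ i := by positivity
      nlinarith
    have hc : ∑ j ∈ range K, (4:ℝ) ^ (j + 1) * ∑ w, lam w * g j (k w) ≤ 32 := by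
      simp only [Finset.mul_sum]
      rw [Finset.sum_comm]
      calc _ ≤ ∑ w, lam w * 32 := by
            refine Finset.sum_le_sum fun w _ => ?_
            refine le_trans (le_of_eq ?_) (mul_le_mul_of_nonneg_left (hb (k w)) (h0 w))
            rw [Finset.mul_sum]
            exact Finset.sum_congr rfl fun j _ => by ring
        _ ≤ 32 := by rw [← Finset.sum_mul]; linarith
    linarith

end Crest.Agent.H0076
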