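import Crest.Agent.H0076.Count
import Crest.Agent.H0076.Num

set_option autoImplicit false
open Finset

namespace Crest.Agent.H0076

variable {Γ V E : Type*} [Fintype Γ] [Fintype V] [DecidableEq V] [Fintype E] [DecidableEq E]

/-- the level profile -/
noncomputable def yy (T l : ℕ) : ℝ :=
  1 / 2 ^ 27 * min ((2:ℝ) ^ l / 2 ^ T)⁻¹ (((2:ℝ) ^ l / 2 ^ T)⁻¹ ^ 3)

lemma yy_pos (T l : ℕ) : 0 < yy T l := by
  unfold yy
  have : 0 < min ((2:ℝ) ^ l / 2 ^ T)⁻¹ (((2:ℝ) ^ l / 2 ^ T)⁻¹ ^ 3) :=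
    lt_min (by positivity) (by positivity)
  positivity

lemma yy_anti (T : ℕ) : Antitone (yy T) := by
  intro a b hab
  unfold yy
  have h1 : (2:ℝ) ^ a ≤ 2 ^ b := pow_le_pow_right₀ (by norm_num) hab
  have h2 : ((2:ℝ) ^ b / 2 ^ T)⁻¹ ≤ ((2:ℝ) ^ a / 2 ^ T)⁻¹ := by gcongr
  gcongr

omit [Fintype V] [DecidableEq V] in
lemma sum_blocks_le (k : V → ℕ) (K : ℕ) (hK : ∀ v, k v ≤ K) (Y : Finset V) (f : ℕ → ℝ) :
    ∑ v ∈ Y, f (k v) = ∑ j ∈ range (K + 1), ((Y.filter fun v => k v = j).card : ℝ) * f j := by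
  rw [← Finset.sum_fiberwise_of_maps_to (g := k) (t := range (K + 1))
    (fun v _ => mem_range.2 (Nat.lt_succ_of_le (hK v)))]
  refine Finset.sum_congr rfl fun j _ => ?_
  rw [Finset.sum_congr rfl (g := fun _ => f j) fun v hv => by rw [(mem_filter.1 hv).2]]
  simp

lemma min_mul_eq {u : ℝ} (hu : 0 < u) : u ^ 2 * min u⁻¹ (u⁻¹ ^ 3) = min u u⁻¹ := by
  rw [mul_min_of_nonneg _ _ (by positivity)]
  congr 1 <;> field_simp

open Classical in
lemma key [Nonempty Γ] (φ : Γ → V ↪ E) (q : ℝ) (hq0 : 0 < q)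
    (hsp : ∀ (I : Finset V) (U : Finset E),
      ((univ.filter fun π => I.map (φ π) = U).card : ℝ) ≤ 2 * q ^ I.card * Fintype.card Γ)
    (k : V → ℕ) {L : ℕ → ℝ} (hL0 : ∀ j, 0 < L j) (hL : ∀ j, 3 * L (j + 1) ≤ L j)
    (hcard : ∀ j, (univ.filter fun v => k v = j).card ≤ 4 ^ (j + 1))
    (hsum : ∀ K, ∑ j ∈ range K, 4 ^ (j + 1) * L j ≤ 40) :
    ∃ (A : ℕ) (ρ d : Fin (A + 1) → ℝ), (∀ l, 0 ≤ ρ l) ∧ ∑ l, ρ l = 1 ∧ (∀ l, 0 ≤ d l) ∧
      ∑ l, ρ l * Real.exp (- d l) ≤ 6 * 2 ^ 54 * q ∧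
      ∑ ω : E → Fin (A + 1), wt ρ ω *
        (if ∀ G, 14 < ∑ v, L (k v) * d (ω (φ G v)) then (1:ℝ) else 0) ≤ 1 / 2 := by
  obtain ⟨K, hK⟩ : ∃ K, ∀ v, k v ≤ K := ⟨univ.sup k, fun v => Finset.le_sup (mem_univ v)⟩
  have hcard' : ∀ (Y : Finset V) j, ((Y.filter fun v => k v = j).card : ℝ) ≤ 4 ^ (j + 1) := by
    intro Y j
    exact_mod_cast le_trans (Finset.card_le_card
      (Finset.filter_subset_filter _ (subset_univ Y))) (hcard j)
  set T := K + 8 with hT
  obtain ⟨A, ρ, h0, h1, hρ, hρ'⟩ := exists_levels (fun l => q / yy T l ^ 2)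
    (fun l => by have := yy_pos T l; positivity) (by
      obtain ⟨l, hl⟩ := pow_unbounded_of_one_lt (2 ^ T * (q⁻¹ + 1) : ℝ) (y := 2) (by norm_num)
      refine ⟨l, ?_⟩
      have hy := yy_pos T l
      rw [le_div_iff₀ (by positivity), one_mul]
      have hu : q⁻¹ + 1 < (2:ℝ) ^ l / 2 ^ T := by
        rw [lt_div_iff₀ (by positivity)]; linarith
      set u := (2:ℝ) ^ l / 2 ^ T with hu'
      have hq' : 0 < q⁻¹ := by positivity
      have h2 : yy T l ≤ u⁻¹ := by
        unfold yy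
        rw [← hu']
        have : min u⁻¹ (u⁻¹ ^ 3) ≤ u⁻¹ := min_le_left _ _
        have h3 : 0 < u⁻¹ := by positivity
        have h4 : (1:ℝ) / 2 ^ 27 ≤ 1 := by norm_num
        nlinarith
      have h3 : u⁻¹ ≤ q := by
        rw [inv_le_comm₀ (by linarith) hq0]; linarith
      have h4 : u⁻¹ ≤ 1 := inv_le_one_of_one_le₀ (by linarith)
      nlinarith)
  let c : ℕ → ℝ := fun l => if T < l then 2 ^ l / 4 else 0
  have hc0 : ∀ l, 0 ≤ c l := fun l => by simp only [c]; split_ifs <;> positivity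
  have hc : ∀ l, c l ≤ 2 ^ l / 4 := fun l => by
    simp only [c]; split_ifs
    · exact le_rfl
    · positivity
  let m : ℕ → ℝ := fun i => min (1 / 2 ^ K * 2 ^ i) (1 / 2 ^ K * 2 ^ i : ℝ)⁻¹
  have hm0 : ∀ i, 0 ≤ m i := fun i => le_min (by positivity) (by positivity)
  have hm6 : ∀ n, ∑ i ∈ range n, m i ≤ 6 := fun n => sum_min_le (by positivity) n
  let N : ℕ → ℝ := fun t => ∑ j ∈ range (K + 1),
    4 ^ (j + 1) * L j * (2 ^ K * (1 + ∑ i ∈ range (j + t), m i))
  let x : ℕ → ℝ := fun t => ((1 / 2 ^ K * 2 ^ t : ℝ)⁻¹) ^ 2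
  have hx0 : ∀ t, 0 < x t := fun t => by simp only [x]; positivity
  have hN0 : ∑ v, L (k v) * 2 ^ (k v) ≤ N 0 := by
    rw [sum_blocks_le k K hK univ (fun j => L j * 2 ^ j)]
    refine Finset.sum_le_sum fun j hj => ?_
    have h2 : (2:ℝ) ^ j ≤ 2 ^ K := pow_le_pow_right₀ (by norm_num) (by simp at hj; omega)
    have h3 : 0 ≤ ∑ i ∈ range (j + 0), m i := Finset.sum_nonneg fun i _ => hm0 i
    have h4 : (2:ℝ) ^ j ≤ 2 ^ K * (1 + ∑ i ∈ range (j + 0), m i) := by
      have : (0:ℝ) < 2 ^ K := by positivity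
      nlinarith
    have := hL0 j
    have := hcard' univ j
    rw [mul_assoc]
    gcongr
  have hN : ∀ t (Y : Finset V), (Y.card : ℝ) ≤ x t →
      N t + ∑ v ∈ Y, L (k v) * 2 ^ (k v + t) ≤ N (t + 1) := by
    intro t Y hY
    rw [sum_blocks_le k K hK Y (fun j => L j * 2 ^ (j + t))]
    simp only [N]
    rw [← Finset.sum_add_distrib]
    refine Finset.sum_le_sum fun j _ => ?_
    rw [← add_assoc, Finset.sum_range_succ]
    have h2 := hcard' Y j
    have h3 : ((Y.filter fun v => k v = j).card : ℝ) ≤ x t :=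
      le_trans (by exact_mod_cast Finset.card_filter_le _ _) hY
    have h4 : ((Y.filter fun v => k v = j).card : ℝ) * 2 ^ (j + t) ≤
        4 ^ (j + 1) * (2 ^ K * m (j + t)) := by
      simp only [m]
      rw [mul_min_of_nonneg _ _ (by positivity), mul_min_of_nonneg _ _ (by positivity)]
      refine le_min ?_ ?_
      · have : (2:ℝ) ^ K * (1 / 2 ^ K * 2 ^ (j + t)) = 2 ^ (j + t) := by field_simp
        rw [this]
        gcongr
      · refine le_trans (mul_le_mul_of_nonneg_right h3 (by positivity)) ?_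
        have e4 : (4:ℝ) ^ (j + 1) = 4 * (2 ^ j) ^ 2 := by
          rw [← pow_mul, mul_comm j 2, pow_mul]; ring
        have e5 : (4:ℝ) ^ (j + 1) * (2 ^ K * (1 / 2 ^ K * 2 ^ (j + t))⁻¹) =
            4 * (x t * 2 ^ (j + t)) := by
          simp only [x]
          rw [e4, pow_add]
          field_simp
        rw [e5]
        have : 0 < x t * 2 ^ (j + t) := by have := hx0 t; positivity
        linarith
    have := mul_le_mul_of_nonneg_left h4 (hL0 j).le
    nlinarith
  have hNA : N A ≤ 280 * 2 ^ K := by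
    have h2 : N A ≤ ∑ j ∈ range (K + 1), 4 ^ (j + 1) * L j * (2 ^ K * 7) := by
      refine Finset.sum_le_sum fun j _ => ?_
      have := hL0 j
      have := hm6 (j + A)
      gcongr
      linarith
    rw [← Finset.sum_mul] at h2
    have h3 := hsum (K + 1)
    have : (0:ℝ) < 2 ^ K := by positivity
    nlinarith
  have main := key_abstract φ q hq0.le hsp k hL0 hL hc0 hc N x hN0 hN h0 h1 (yy T)
    (fun l => (yy_pos T l).le) (yy_anti T) (fun l hl => by
      rw [hρ' l hl]
      have := yy_pos T l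
      field_simp)
  refine ⟨A, ρ, fun l => 12 * c l / 2 ^ T, h0, h1, fun l => ?_, ?_, ?_⟩
  · have := hc0 l
    positivity
  · have h2 := sum_min_le (s := 1 / 2 ^ T) (by positivity) (A + 1)
    rw [← Fin.sum_univ_eq_sum_range (fun l => min (1 / 2 ^ T * 2 ^ l) (1 / 2 ^ T * 2 ^ l : ℝ)⁻¹)]
      at h2
    have h3 : ∑ l : Fin (A + 1), ρ l * Real.exp (-(12 * c l / 2 ^ T)) ≤
        ∑ l : Fin (A + 1), 2 ^ 54 * q *
          min (1 / 2 ^ T * 2 ^ (l : ℕ)) (1 / 2 ^ T * 2 ^ (l : ℕ) : ℝ)⁻¹ := by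
      refine Finset.sum_le_sum fun l _ => ?_
      refine le_trans (mul_le_mul_of_nonneg_right (hρ l) (Real.exp_pos _).le) ?_
      have e : (1 / 2 ^ T * 2 ^ (l : ℕ) : ℝ) = 2 ^ (l : ℕ) / 2 ^ T := by ring
      rw [e]
      simp only [c, yy]
      have hu0 : (0:ℝ) < 2 ^ (l : ℕ) / 2 ^ T := by positivity
      split_ifs with hl
      · have hu : (1:ℝ) ≤ 2 ^ (l : ℕ) / 2 ^ T := by
          rw [one_le_div (by positivity)]
          exact pow_le_pow_right₀ (by norm_num) hl.le
        have e2 : (12 * (2 ^ (l : ℕ) / 4) / 2 ^ T : ℝ) = 3 * (2 ^ (l : ℕ) / 2 ^ T) := by ring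
        rw [e2]
        generalize (2:ℝ) ^ (l : ℕ) / 2 ^ T = u at hu hu0
        have hi : u⁻¹ ≤ 1 := inv_le_one_of_one_le₀ hu
        have hi0 : 0 < u⁻¹ := by positivity
        rw [min_eq_right (pow_le_of_le_one hi0.le hi (by norm_num)), min_eq_right (hi.trans hu),
          Real.exp_neg]
        have h7 := pow_seven_le hu0.le
        have h8 : (Real.exp (3 * u))⁻¹ ≤ (u ^ 7)⁻¹ := by gcongr
        calc _ ≤ q / (1 / 2 ^ 27 * u⁻¹ ^ 3) ^ 2 * (u ^ 7)⁻¹ := by gcongr
          _ = _ := by field_simp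
      · have hu : (2:ℝ) ^ (l : ℕ) / 2 ^ T ≤ 1 := by
          rw [div_le_one (by positivity)]
          exact pow_le_pow_right₀ (by norm_num) (by omega)
        generalize (2:ℝ) ^ (l : ℕ) / 2 ^ T = u at hu hu0
        have hi : 1 ≤ u⁻¹ := (one_le_inv₀ hu0).2 hu
        rw [min_eq_left (le_self_pow₀ hi (by norm_num)), min_eq_left (hu.trans hi)]
        have e3 : q / (1 / 2 ^ 27 * u⁻¹) ^ 2 * Real.exp (-(12 * 0 / 2 ^ T)) =
            2 ^ 54 * q * (u * u) := by
          simp only [mul_zero, zero_div, neg_zero, Real.exp_zero]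
          field_simp
        rw [e3]
        gcongr
        nlinarith
    rw [← Finset.mul_sum] at h3
    have : 0 < 2 ^ 54 * q := by positivity
    nlinarith
  · refine le_trans (Finset.sum_le_sum fun ω _ =>
      mul_le_mul_of_nonneg_left ?_ (wt_nonneg h0 ω)) (main.trans ?_)
    · split_ifs with ha hb
      · exact le_rfl
      · refine (hb fun G => ?_).elim
        have h2 := ha G
        have e : ∑ v, L (k v) * (12 * c (ω (φ G v)) / 2 ^ T) =
            12 * (∑ v, L (k v) * c (ω (φ G v))) / 2 ^ T := by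
          rw [Finset.mul_sum, Finset.sum_div]
          exact Finset.sum_congr rfl fun v _ => by ring
        rw [e, lt_div_iff₀ (by positivity), hT, pow_add] at h2
        have : (0:ℝ) < 2 ^ K := by positivity
        linarith
      · norm_num
      · exact le_rfl
    · have hb : ∀ t, 2 * (∑ Y : Finset V,
          if x t < Y.card then ∏ v ∈ Y, yy T (k v + t) else 0) ^ 2 ≤ 2 / 25 * m t := by
        intro t
        have hX : ∑ v, yy T (k v + t) ≤ x t / 64 := by
          rw [sum_blocks_le k K hK univ (fun j => yy T (j + t))]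
          have h2 := sum_min_le (s := 2 ^ t / 2 ^ T) (by positivity) (K + 1)
          have h3 : ∑ j ∈ range (K + 1), ((univ.filter fun v => k v = j).card : ℝ) * yy T (j + t) ≤
              ∑ j ∈ range (K + 1), x t / 512 *
                min (2 ^ t / 2 ^ T * 2 ^ j) (2 ^ t / 2 ^ T * 2 ^ j : ℝ)⁻¹ := by
            refine Finset.sum_le_sum fun j _ => ?_
            refine le_trans (mul_le_mul_of_nonneg_right (hcard' univ j) (yy_pos _ _).le)
              (le_of_eq ?_)
            have e : (2 ^ t / 2 ^ T * 2 ^ j : ℝ) = 2 ^ (j + t) / 2 ^ T := by ring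
            rw [e, ← min_mul_eq (by positivity), yy, ← mul_assoc, ← mul_assoc]
            congr 1
            have e4 : (4:ℝ) ^ (j + 1) = 4 * (2 ^ j) ^ 2 := by
              rw [← pow_mul, mul_comm j 2, pow_mul]; ring
            simp only [x]
            rw [e4, hT, pow_add, pow_add]
            field_simp
            norm_num
          rw [← Finset.mul_sum] at h3
          have := hx0 t
          nlinarith
        have h2 := chernoff (fun v => yy T (k v + t)) (fun v => (yy_pos _ _).le) (hx0 t) hX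
        have h3 : 0 ≤ ∑ Y : Finset V, if x t < Y.card then ∏ v ∈ Y, yy T (k v + t) else 0 :=
          Finset.sum_nonneg fun Y _ => by
            have : 0 ≤ ∏ v ∈ Y, yy T (k v + t) := Finset.prod_nonneg fun v _ => (yy_pos _ _).le
            split_ifs
            · exact this
            · exact le_rfl
        have h4 : (min (x t) (x t)⁻¹) ^ 2 ≤ m t := by
          simp only [x, m]
          have hu0 : (0:ℝ) < 1 / 2 ^ K * 2 ^ t := by positivity
          generalize (1 / 2 ^ K * 2 ^ t : ℝ) = u at hu0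
          rcases le_total u 1 with hu | hu
          · have hi : 1 ≤ u⁻¹ := (one_le_inv₀ hu0).2 hu
            rw [min_eq_left (hu.trans hi)]
            have h5 : min (u⁻¹ ^ 2) (u⁻¹ ^ 2)⁻¹ ≤ u ^ 2 := by
              refine (min_le_right _ _).trans (le_of_eq ?_)
              field_simp
            have h6 : 0 ≤ min (u⁻¹ ^ 2) (u⁻¹ ^ 2)⁻¹ := le_min (by positivity) (by positivity)
            calc _ ≤ (u ^ 2) ^ 2 := by gcongr
              _ ≤ u := by rw [← pow_mul]; exact pow_le_of_le_one hu0.le hu (by norm_num)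
          · have hi : u⁻¹ ≤ 1 := inv_le_one_of_one_le₀ hu
            rw [min_eq_right (hi.trans hu)]
            have h5 : min (u⁻¹ ^ 2) (u⁻¹ ^ 2)⁻¹ ≤ u⁻¹ ^ 2 := min_le_left _ _
            have h6 : 0 ≤ min (u⁻¹ ^ 2) (u⁻¹ ^ 2)⁻¹ := le_min (by positivity) (by positivity)
            calc _ ≤ (u⁻¹ ^ 2) ^ 2 := by gcongr
              _ ≤ u⁻¹ := by
                rw [← pow_mul]; exact pow_le_of_le_one (by positivity) hi (by norm_num)
        have h5 := pow_le_pow_left₀ h3 h2 2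
        rw [div_pow] at h5
        linarith
      refine (Finset.sum_le_sum fun t _ => hb t).trans ?_
      rw [← Finset.mul_sum]
      have := hm6 A
      linarith

end Crest.Agent.H0076
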