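import Crest.Agent.H0076.Prob

set_option autoImplicit false
open Finset

namespace Crest.Agent.H0076

variable {Γ E : Type*} [Fintype Γ] [Fintype E] [DecidableEq E]

/-- the part of a copy not captured before level `i` -/
def rest {A : ℕ} (H : Γ → Finset E) (i : ℕ) (ω : E → Fin (A + 1)) (G : Γ) : Finset E :=
  (H G).filter fun x => i ≤ (ω x : ℕ)

omit [Fintype Γ] [Fintype E] [DecidableEq E] in
lemma exists_S {A : ℕ} (H : Γ → Finset E) (ℓ : ℕ → ℕ) :
    ∃ S : ℕ → (E → Fin (A + 1)) → Finset E, (∀ i Z, (S i Z).card ≤ ℓ i) ∧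
      ∀ i Z G, rest H (i + 1) Z G = ∅ → (rest H i Z G).card ≤ ℓ i →
        ∃ D, rest H (i + 1) Z D = ∅ ∧ S i Z = rest H i Z D := by
  have : ∀ (i : ℕ) (Z : E → Fin (A + 1)), ∃ S : Finset E, S.card ≤ ℓ i ∧
      ∀ G, rest H (i + 1) Z G = ∅ → (rest H i Z G).card ≤ ℓ i →
        ∃ D, rest H (i + 1) Z D = ∅ ∧ S = rest H i Z D := by
    intro i Z
    by_cases h : ∃ G, rest H (i + 1) Z G = ∅ ∧ (rest H i Z G).card ≤ ℓ i
    · obtain ⟨G, h1, h2⟩ := h
      exact ⟨_, h2, fun _ _ _ => ⟨G, h1, rfl⟩⟩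
    · exact ⟨∅, by simp, fun G h1 h2 => (h ⟨G, h1, h2⟩).elim⟩
  choose S hS using this
  exact ⟨S, fun i Z => (hS i Z).1, fun i Z => (hS i Z).2⟩

omit [Fintype E] in
lemma det_pp {A : ℕ} (H : Γ → Finset E) (ℓ : ℕ → ℕ) (hℓ0 : ∀ G, (H G).card ≤ ℓ 0)
    (hℓA : ℓ A = 0) (S : ℕ → (E → Fin (A + 1)) → Finset E) (hS1 : ∀ i Z, (S i Z).card ≤ ℓ i)
    (hS2 : ∀ i Z G, rest H (i + 1) Z G = ∅ → (rest H i Z G).card ≤ ℓ i →
        ∃ D, rest H (i + 1) Z D = ∅ ∧ S i Z = rest H i Z D)
    (ω : E → Fin (A + 1)) (hbad : ∀ G, rest H A ω G ≠ ∅) (π : Γ) :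
    ∃ (i : Fin A) (U : Finset E), ℓ (i + 1) < U.card ∧ U ⊆ H π ∧
      U ⊆ S i (fun x => if x ∈ U then i.castSucc else ω x) := by
  classical
  let P : ℕ → Prop := fun i => ∃ G, rest H i ω G ⊆ H π ∧ (rest H i ω G).card ≤ ℓ i
  have hP0 : P 0 := ⟨π, filter_subset _ _, (card_filter_le _ _).trans (hℓ0 π)⟩
  have hPA : ¬ P A := by
    rintro ⟨G, -, hG⟩
    rw [hℓA] at hG
    exact hbad G (Finset.card_eq_zero.1 (by omega))
  obtain ⟨t, htA, ht, ht'⟩ : ∃ t < A, P t ∧ ¬ P (t + 1) := by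
    by_contra hne
    push Not at hne
    have : ∀ t ≤ A, P t := by
      intro t
      induction t with
      | zero => exact fun _ => hP0
      | succ t ih => exact fun h => hne t (by omega) (ih (by omega))
    exact hPA (this A le_rfl)
  obtain ⟨G0, hG0, hG0'⟩ := ht
  have hsub : ∀ G, rest H (t + 1) ω G ⊆ rest H t ω G := fun G x hx => by
    simp only [rest, mem_filter] at hx ⊢
    exact ⟨hx.1, by omega⟩
  obtain ⟨G, hG, hmin⟩ := Finset.exists_min_image
    (univ.filter fun G => rest H (t + 1) ω G ⊆ H π ∧ (rest H t ω G).card ≤ ℓ t)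
    (fun G => (rest H (t + 1) ω G).card)
    ⟨G0, by simpa using ⟨(hsub G0).trans hG0, hG0'⟩⟩
  simp only [mem_filter, mem_univ, true_and] at hG hmin
  set U := rest H (t + 1) ω G with hU
  have hUm : ∀ x ∈ U, t + 1 ≤ (ω x : ℕ) := fun x hx => (mem_filter.1 hx).2
  refine ⟨⟨t, htA⟩, U, ?_, hG.1, ?_⟩
  · by_contra h
    exact ht' ⟨G, hG.1, by simpa using h⟩
  set Z : E → Fin (A + 1) := fun x => if x ∈ U then (⟨t, htA⟩ : Fin A).castSucc else ω x with hZ
  have hZ1 : ∀ x ∈ U, (Z x : ℕ) = t := fun x hx => by simp [hZ, hx]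
  have hZ2 : ∀ x, x ∉ U → Z x = ω x := fun x hx => by simp [hZ, hx]
  have hsame : ∀ G', rest H t Z G' = rest H t ω G' := fun G' => by
    refine Finset.filter_congr fun x _ => ?_
    by_cases hx : x ∈ U
    · have := hUm x hx
      rw [hZ1 x hx]
      omega
    · rw [hZ2 x hx]
  have h1 : rest H (t + 1) Z G = ∅ := by
    refine Finset.filter_eq_empty_iff.2 fun x hx => ?_
    by_cases hx' : x ∈ U
    · rw [hZ1 x hx']; omega
    · rw [hZ2 x hx']
      exact fun h => hx' (mem_filter.2 ⟨hx, h⟩)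
  obtain ⟨D, hD1, hD2⟩ := hS2 t Z G h1 (by rw [hsame]; exact hG.2)
  have h2 : rest H (t + 1) ω D ⊆ U := by
    intro x hx
    by_contra hx'
    have : x ∈ rest H (t + 1) Z D := by
      simp only [rest, mem_filter] at hx ⊢
      rw [hZ2 x hx']
      exact hx
    rw [hD1] at this
    simp at this
  have h3 := hmin D ⟨h2.trans hG.1, by rw [← hsame, ← hD2]; exact hS1 t Z⟩
  have h4 := Finset.eq_of_subset_of_card_le h2 h3
  change U ⊆ S t Z
  rw [hD2, hsame, ← h4]
  exact hsub D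

lemma num_pp (h : ℕ) (hh : 1 ≤ h) :
    ∑ i : Fin (Nat.log 2 h + 1), (1 / 4 : ℝ) ^ (h / 2 ^ ((i : ℕ) + 1) + 1) ≤ 1 / 2 := by
  set B := Nat.log 2 h with hB
  have hpow : 2 ^ B ≤ h := Nat.pow_log_le_self 2 (by omega)
  rw [Fin.sum_univ_eq_sum_range (fun i => (1 / 4 : ℝ) ^ (h / 2 ^ (i + 1) + 1)),
    ← Finset.sum_range_reflect]
  have h1 : ∀ j ∈ range (B + 1), (1 / 4 : ℝ) ^ (h / 2 ^ (B + 1 - 1 - j + 1) + 1) ≤
      (1 / 4) ^ (j + 1) := by
    intro j hj
    refine pow_le_pow_of_le_one (by norm_num) (by norm_num) (Nat.succ_le_succ ?_)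
    rcases Nat.eq_zero_or_pos j with h0 | h0
    · rw [h0]; exact Nat.zero_le _
    · have hj' : j ≤ B := by simp at hj; omega
      rw [Nat.le_div_iff_mul_le (by positivity)]
      refine le_trans ?_ hpow
      have e : B = (j - 1) + (B + 1 - 1 - j + 1) := by omega
      conv_rhs => rw [e, pow_add]
      refine Nat.mul_le_mul_right _ ?_
      have := Nat.lt_two_pow_self (n := j - 1)
      omega
  refine (Finset.sum_le_sum h1).trans ?_
  have : ∀ n, ∑ j ∈ range n, (1 / 4 : ℝ) ^ (j + 1) = 1 / 3 - 1 / 3 * (1 / 4) ^ n := by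
    intro n
    induction n with
    | zero => simp
    | succ n ih => rw [Finset.sum_range_succ, ih]; ring
  rw [this]
  have : (0:ℝ) < (1 / 4) ^ (B + 1) := by positivity
  linarith

open Classical in
/-- spread implies threshold -/
lemma park_pham [Nonempty Γ] (H : Γ → Finset E) (h : ℕ) (hh : 1 ≤ h) (hH : ∀ G, (H G).card ≤ h)
    (κ : ℝ) (hκ : 0 ≤ κ)
    (hsp : ∀ J : Finset E,
      ((univ.filter fun π => J ⊆ H π).card : ℝ) ≤ 2 * κ ^ J.card * Fintype.card Γ)
    (p : ℝ) (hp1 : p ≤ 1) (hp : 16 * κ * (Nat.log 2 h + 1) ≤ p) :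
    ∑ ω : E → Bool, wt (fun b => if b then p else 1 - p) ω *
      (if ∀ G, ¬ ∀ x ∈ H G, ω x = true then (1:ℝ) else 0) ≤ 1 / 2 := by
  set A := Nat.log 2 h + 1 with hA
  have hA0 : (0:ℝ) < A := by positivity
  have hAe : (A : ℝ) = Nat.log 2 h + 1 := by rw [hA]; push_cast; ring
  rw [← hAe] at hp
  have hp0 : 0 ≤ p := le_trans (by positivity) hp
  let ρ : Fin (A + 1) → ℝ := fun l => if (l : ℕ) < A then p / A else 1 - p
  have h0 : ∀ l, 0 ≤ ρ l := fun l => by
    simp only [ρ]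
    split_ifs
    · positivity
    · linarith
  have h1 : ∑ l, ρ l = 1 := by
    rw [Fin.sum_univ_castSucc]
    simp only [ρ, Fin.val_castSucc, Fin.is_lt, if_true, Fin.val_last, lt_irrefl, if_false]
    simp only [Finset.sum_const, card_univ, Fintype.card_fin, nsmul_eq_mul]
    field_simp
    ring
  have hpush := sum_push ρ (fun (_ : E) (l : Fin (A + 1)) => decide ((l : ℕ) < A))
    (fun ω => if ∀ G, ¬ ∀ x ∈ H G, ω x = true then (1:ℝ) else 0)
  have hb : ∀ b : Bool, (∑ l : Fin (A + 1), if decide ((l : ℕ) < A) = b then ρ l else 0) =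
      if b then p else 1 - p := by
    intro b
    rw [Fin.sum_univ_castSucc]
    cases b
    · simp [ρ]
    · simp only [ρ, Fin.val_castSucc, Fin.is_lt, if_true, Fin.val_last, lt_irrefl, if_false,
        decide_true, decide_false]
      simp only [Finset.sum_const, card_univ, Fintype.card_fin, nsmul_eq_mul]
      simp only [Bool.false_eq_true, if_false, add_zero]
      field_simp
  simp only [hb] at hpush
  unfold wt
  rw [← hpush]
  let ℓ : ℕ → ℕ := fun i => h / 2 ^ i
  obtain ⟨S, hS1, hS2⟩ := exists_S (A := A) H ℓ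
  have hℓA : ℓ A = 0 := Nat.div_eq_of_lt (Nat.lt_pow_succ_log_self (by norm_num) h)
  have hΓ : (0:ℝ) < Fintype.card Γ := by exact_mod_cast Fintype.card_pos
  let ind : Fin A → Finset E → (E → Fin (A + 1)) → ℝ := fun i U Z => if U ⊆ S i Z then 1 else 0
  have hind : ∀ i U Z, 0 ≤ ind i U Z := fun i U Z => by
    simp only [ind]; split_ifs <;> simp
  have hpt : ∀ ω : E → Fin (A + 1),
      (if ∀ G, ¬ ∀ x ∈ H G, decide ((ω x : ℕ) < A) = true then (1:ℝ) else 0) ≤
      ∑ i : Fin A, ∑ U : Finset E, if ℓ (i + 1) < U.card then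
        2 * κ ^ U.card * ind i U (fun x => if x ∈ U then i.castSucc else ω x) else 0 := by
    intro ω
    split_ifs with hbad
    swap
    · refine Finset.sum_nonneg fun i _ => Finset.sum_nonneg fun U _ => ?_
      have := hind i U (fun x => if x ∈ U then i.castSucc else ω x)
      split_ifs
      · positivity
      · exact le_rfl
    have hbad' : ∀ G, rest H A ω G ≠ ∅ := by
      intro G hG
      refine hbad G fun x hx => ?_
      have := Finset.filter_eq_empty_iff.1 hG hx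
      simpa using this
    let f : Γ → Fin A → Finset E → ℝ := fun π i U =>
      (if U ⊆ H π then 1 else 0) * (if ℓ (i + 1) < U.card then
        ind i U (fun x => if x ∈ U then i.castSucc else ω x) else 0)
    have hf0 : ∀ π i U, 0 ≤ f π i U := fun π i U => by
      have := hind i U (fun x => if x ∈ U then i.castSucc else ω x)
      simp only [f]
      split_ifs <;> simp [this]
    have hπ : ∀ π : Γ, (1:ℝ) ≤ ∑ i, ∑ U, f π i U := by
      intro π
      obtain ⟨i, U, hU1, hU2, hU3⟩ := det_pp H ℓ (fun G => by simpa [ℓ] using hH G) hℓA S hS1 hS2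
        ω hbad' π
      have e : f π i U = 1 := by
        simp only [f, ind]
        rw [if_pos hU2, if_pos hU1, if_pos hU3, mul_one]
      rw [← e]
      refine le_trans ?_ (Finset.single_le_sum (f := fun i => ∑ U, f π i U)
        (fun i _ => Finset.sum_nonneg fun U _ => hf0 _ _ _) (mem_univ i))
      exact Finset.single_le_sum (f := fun U => f π i U) (fun U _ => hf0 _ _ _) (mem_univ U)
    have hsum : (Fintype.card Γ : ℝ) ≤ ∑ π, ∑ i, ∑ U, f π i U := by
      refine le_trans (le_of_eq ?_) (Finset.sum_le_sum fun π _ => hπ π)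
      simp
    refine le_of_mul_le_mul_left ?_ hΓ
    rw [mul_one]
    refine hsum.trans ?_
    rw [Finset.sum_comm, Finset.mul_sum]
    refine Finset.sum_le_sum fun i _ => ?_
    rw [Finset.sum_comm, Finset.mul_sum]
    refine Finset.sum_le_sum fun U _ => ?_
    simp only [f]
    rw [← Finset.sum_mul, Finset.sum_boole]
    split_ifs with hU
    · have h2 := hsp U
      have h3 := hind i U (fun x => if x ∈ U then i.castSucc else ω x)
      nlinarith
    · simp
  refine (Finset.sum_le_sum fun ω _ =>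
    mul_le_mul_of_nonneg_left (hpt ω) (wt_nonneg h0 ω)).trans ?_
  refine le_trans ?_ (num_pp h hh)
  simp only [Finset.mul_sum]
  rw [Finset.sum_comm]
  refine Finset.sum_le_sum fun i _ => ?_
  rw [Finset.sum_comm]
  have h2 : ∀ U : Finset E, ∑ ω : E → Fin (A + 1), wt ρ ω * (if ℓ (i + 1) < U.card then
        2 * κ ^ U.card * ind i U (fun x => if x ∈ U then i.castSucc else ω x) else 0) ≤
      ∑ Z : E → Fin (A + 1), wt ρ Z * (2 * (1 / 16) ^ (ℓ (i + 1) + 1) * ind i U Z) := by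
    intro U
    have hR : 0 ≤ ∑ Z : E → Fin (A + 1), wt ρ Z * ind i U Z :=
      Finset.sum_nonneg fun Z _ => mul_nonneg (wt_nonneg h0 Z) (hind _ _ _)
    have e2 : ∑ Z : E → Fin (A + 1), wt ρ Z * (2 * (1 / 16) ^ (ℓ (i + 1) + 1) * ind i U Z) =
        2 * (1 / 16) ^ (ℓ (i + 1) + 1) * ∑ Z : E → Fin (A + 1), wt ρ Z * ind i U Z := by
      rw [Finset.mul_sum]
      exact Finset.sum_congr rfl fun Z _ => by ring
    rw [e2]
    split_ifs with hU
    · have hm := move_bound h0 h1 U (fun _ => i.castSucc) (ind i U) (hind i U)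
      have e3 : ρ i.castSucc = p / A := by simp [ρ]
      rw [Finset.prod_const, e3] at hm
      have e1 : ∑ ω : E → Fin (A + 1), wt ρ ω *
          (2 * κ ^ U.card * ind i U (fun x => if x ∈ U then i.castSucc else ω x)) =
          2 * κ ^ U.card * ∑ ω : E → Fin (A + 1), wt ρ ω *
            ind i U (fun x => if x ∈ U then i.castSucc else ω x) := by
        rw [Finset.mul_sum]
        exact Finset.sum_congr rfl fun Z _ => by ring
      rw [e1]
      have hL : 0 ≤ ∑ ω : E → Fin (A + 1), wt ρ ω *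
          ind i U (fun x => if x ∈ U then i.castSucc else ω x) :=
        Finset.sum_nonneg fun Z _ => mul_nonneg (wt_nonneg h0 Z) (hind _ _ _)
      have hk : κ ≤ 1 / 16 * (p / A) := by
        rw [← mul_div_assoc, le_div_iff₀ hA0]; linarith
      have hk2 : κ ^ U.card ≤ (1 / 16) ^ (ℓ (i + 1) + 1) * (p / A) ^ U.card := by
        refine (pow_le_pow_left₀ hκ hk _).trans ?_
        rw [mul_pow]
        gcongr ?_ * _
        exact pow_le_pow_of_le_one (by norm_num) (by norm_num) hU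
      generalize (∑ ω : E → Fin (A + 1), wt ρ ω *
          ind i U (fun x => if x ∈ U then i.castSucc else ω x)) = X at hL hm
      calc 2 * κ ^ U.card * X
          ≤ 2 * ((1 / 16) ^ (ℓ (i + 1) + 1) * (p / A) ^ U.card) * X := by gcongr
        _ = 2 * (1 / 16) ^ (ℓ (i + 1) + 1) * (X * (p / A) ^ U.card) := by ring
        _ ≤ _ := by gcongr
    · simp only [mul_zero, Finset.sum_const_zero]
      positivity
  refine (Finset.sum_le_sum fun U _ => h2 U).trans ?_
  rw [Finset.sum_comm]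
  have h3 : ∀ Z : E → Fin (A + 1), ∑ U : Finset E,
      wt ρ Z * (2 * (1 / 16) ^ (ℓ (i + 1) + 1) * ind i U Z) ≤
      wt ρ Z * (1 / 4) ^ (ℓ (i + 1) + 1) := by
    intro Z
    rw [← Finset.mul_sum, ← Finset.mul_sum]
    refine mul_le_mul_of_nonneg_left ?_ (wt_nonneg h0 Z)
    have e : ∑ U : Finset E, ind i U Z = 2 ^ (S i Z).card := by
      simp only [ind]
      rw [Finset.sum_boole]
      have : (univ.filter fun U : Finset E => U ⊆ S i Z) = (S i Z).powerset := by
        ext U; simp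
      rw [this, Finset.card_powerset]
      push_cast; rfl
    rw [e]
    have h4 : (S i Z).card + 1 ≤ 2 * (ℓ (i + 1) + 1) := by
      have := hS1 i Z
      have e : ℓ (i + 1) = ℓ i / 2 := by
        simp only [ℓ]
        rw [Nat.div_div_eq_div_mul, pow_succ]
      omega
    have h5 : (2:ℝ) ^ ((S i Z).card + 1) ≤ 2 ^ (2 * (ℓ (i + 1) + 1)) :=
      pow_le_pow_right₀ (by norm_num) h4
    rw [pow_mul, pow_succ] at h5
    have e2 : (1 / 4 : ℝ) ^ (ℓ (i + 1) + 1) =
        (1 / 16) ^ (ℓ (i + 1) + 1) * (2 ^ 2) ^ (ℓ (i + 1) + 1) := by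
      rw [← mul_pow]; norm_num
    rw [e2]
    have : (0:ℝ) < (1 / 16) ^ (ℓ (i + 1) + 1) := by positivity
    have := mul_le_mul_of_nonneg_left h5 this.le
    linarith
  refine (Finset.sum_le_sum fun Z _ => h3 Z).trans (le_of_eq ?_)
  rw [← Finset.sum_mul, sum_wt h1, one_mul]

end Crest.Agent.H0076
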