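import Crest.Agent.H0076.Spread
import Crest.Agent.H0076.PP

set_option autoImplicit false
open Finset

namespace Crest.Agent.H0076

variable {Γ V E : Type*} [Fintype Γ] [Fintype V] [DecidableEq V] [Fintype E] [DecidableEq E]

omit [Fintype V] [DecidableEq V] [Fintype E] in
open Classical in
lemma fiber_bound [Group Γ] (a : Γ →* Equiv.Perm E) (φ : Γ → V ↪ E)
    (hφ : ∀ g π v, a g (φ π v) = φ (g * π) v) (I : Finset V) (U : Finset E) :
    (univ.filter fun π => I.map (φ π) = U).card * (univ.image fun π => I.map (φ π)).card ≤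
      Fintype.card Γ := by
  rcases (univ.filter fun π => I.map (φ π) = U).eq_empty_or_nonempty with h | ⟨π0, h0⟩
  · rw [h]; simp
  have h0' : I.map (φ π0) = U := (mem_filter.1 h0).2
  have hmap : ∀ g π, I.map (φ (g * π)) = (I.map (φ π)).map (a g).toEmbedding := by
    intro g π
    rw [Finset.map_map]
    congr 1
    ext v
    simp [hφ]
  rw [← Finset.card_univ, Finset.card_eq_sum_card_image (fun π => I.map (φ π)) univ, mul_comm,
    ← smul_eq_mul, ← Finset.sum_const]
  refine Finset.sum_le_sum fun U' hU' => ?_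
  obtain ⟨π1, -, rfl⟩ := Finset.mem_image.1 hU'
  refine Finset.card_le_card_of_injOn (fun π => π1 * π0⁻¹ * π) (fun π hπ => ?_)
    (fun x _ y _ hxy => mul_left_cancel hxy)
  have h1 : I.map (φ π) = U := by simpa using hπ
  simp only [coe_filter, mem_univ, true_and, Set.mem_ofPred_eq]
  rw [hmap, h1, ← h0', ← hmap, inv_mul_cancel_right]

lemma const_bound : (16 * (6 * 2 ^ 54 * Real.exp 14) : ℝ) ≤ 2048 * Real.exp 50 := by
  have e : Real.exp 50 = Real.exp 14 * Real.exp 1 ^ 36 := by
    rw [← Real.exp_nat_mul, ← Real.exp_add]; norm_num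
  have h1 : (2.7:ℝ) ^ 36 ≤ Real.exp 1 ^ 36 := by
    have := Real.exp_one_gt_d9
    gcongr
    linarith
  have h2 : (2:ℝ) ^ 50 ≤ 2.7 ^ 36 := by norm_num
  have h3 := Real.exp_pos 14
  rw [e]
  nlinarith

open Classical in
lemma abstract_main [Group Γ] (a : Γ →* Equiv.Perm E) (φ : Γ → V ↪ E)
    (hφ : ∀ g π v, a g (φ π v) = φ (g * π) v) (hV : 1 ≤ Fintype.card V) (q : ℝ) (hq0 : 0 ≤ q)
    (horb : ∀ I : Finset V,
      (1:ℝ) / 2 ≤ (univ.image fun π => I.map (φ π)).card * q ^ I.card)
    (p : ℝ) (hp1 : p ≤ 1)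
    (hp : 2048 * Real.exp 50 * q * (1 + Real.logb 2 (Fintype.card V)) ≤ p) :
    ∑ ω : E → Bool, wt (fun b => if b then p else 1 - p) ω *
      (if ∀ G, ¬ ∀ x ∈ univ.map (φ G), ω x = true then (1:ℝ) else 0) ≤ 1 / 2 := by
  have hq : 0 < q := by
    refine lt_of_le_of_ne hq0 fun h => ?_
    have h1 := horb univ
    rw [← h, card_univ, zero_pow (by omega)] at h1
    norm_num at h1
  have hsp : ∀ (I : Finset V) (U : Finset E),
      ((univ.filter fun π => I.map (φ π) = U).card : ℝ) ≤ 2 * q ^ I.card * Fintype.card Γ := by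
    intro I U
    have h1 : ((univ.filter fun π => I.map (φ π) = U).card : ℝ) *
        (univ.image fun π => I.map (φ π)).card ≤ Fintype.card Γ := by
      exact_mod_cast fiber_bound a φ hφ I U
    have h2 := horb I
    have h3 : (0:ℝ) ≤ (univ.filter fun π => I.map (φ π) = U).card := by positivity
    have h4 : 0 ≤ q ^ I.card := by positivity
    nlinarith [mul_le_mul_of_nonneg_left h2 h3, mul_le_mul_of_nonneg_left h1 h4]
  refine park_pham (fun G => univ.map (φ G)) (Fintype.card V) hV (fun G => by simp)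
    (6 * 2 ^ 54 * q * Real.exp 14) (by positivity) (spread a φ hφ q hq hsp) p hp1 (le_trans ?_ hp)
  have h1 : (Nat.log 2 (Fintype.card V) : ℝ) ≤ Real.logb 2 (Fintype.card V) := by
    simpa using Real.natLog_le_logb (Fintype.card V) 2
  have h2 := mul_le_mul_of_nonneg_right const_bound hq0
  have h3 : (0:ℝ) ≤ Nat.log 2 (Fintype.card V) := by positivity
  calc _ = 16 * (6 * 2 ^ 54 * Real.exp 14) * q * (1 + Nat.log 2 (Fintype.card V)) := by ring
    _ ≤ _ := by gcongr

end Crest.Agent.H0076
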