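import Mathlib

set_option autoImplicit false
open Finset

namespace Crest.Agent.H0076

variable {E L : Type*} [Fintype E] [DecidableEq E] [Fintype L] [DecidableEq L]

/-- product weight of a configuration of labels -/
noncomputable def wt (ρ : L → ℝ) (ω : E → L) : ℝ := ∏ x, ρ (ω x)

omit [DecidableEq E] [Fintype L] [DecidableEq L] in
lemma wt_nonneg {ρ : L → ℝ} (h : ∀ l, 0 ≤ ρ l) (ω : E → L) : 0 ≤ wt ρ ω :=
  Finset.prod_nonneg fun _ _ => h _

omit [DecidableEq L] in
lemma sum_prod_fun (f : E → L → ℝ) : ∑ ω : E → L, ∏ x, f x (ω x) = ∏ x, ∑ l, f x l := by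
  rw [Finset.prod_univ_sum]
  simp

omit [DecidableEq L] in
lemma sum_wt {ρ : L → ℝ} (h1 : ∑ l, ρ l = 1) : ∑ ω : E → L, wt ρ ω = 1 := by
  unfold wt
  rw [sum_prod_fun (fun _ l => ρ l)]
  simp [h1]

omit [DecidableEq L] in
/-- push-forward of a product weight under coordinatewise maps -/
lemma sum_push {L' : Type*} [Fintype L'] [DecidableEq L'] (ρ : L → ℝ) (g : E → L → L')
    (F : (E → L') → ℝ) :
    ∑ ω : E → L, wt ρ ω * F (fun x => g x (ω x)) =
      ∑ Z : E → L', (∏ x, ∑ l, if g x l = Z x then ρ l else 0) * F Z := by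
  have h1 : ∀ Z : E → L', (∏ x, ∑ l, if g x l = Z x then ρ l else 0) =
      ∑ ω : E → L, if (fun x => g x (ω x)) = Z then wt ρ ω else 0 := by
    intro Z
    rw [← sum_prod_fun (fun x l => if g x l = Z x then ρ l else 0)]
    refine Finset.sum_congr rfl fun ω _ => ?_
    split_ifs with h
    · subst h
      simp [wt]
    · obtain ⟨x, hx⟩ := Function.ne_iff.1 h
      exact Finset.prod_eq_zero (Finset.mem_univ x) (by simp [hx])
  simp_rw [h1, Finset.sum_mul]
  rw [Finset.sum_comm]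
  refine Finset.sum_congr rfl fun ω _ => ?_
  rw [Finset.sum_eq_single (fun x => g x (ω x))]
  · simp
  · intro b _ hb
    simp [hb.symm]
  · simp

/-- moving the labels on `S` to prescribed values costs at most the inverse of their weights -/
lemma move_bound {ρ : L → ℝ} (h0 : ∀ l, 0 ≤ ρ l) (h1 : ∑ l, ρ l = 1) (S : Finset E) (β : E → L)
    (F : (E → L) → ℝ) (hF : ∀ Z, 0 ≤ F Z) :
    (∑ ω : E → L, wt ρ ω * F (fun x => if x ∈ S then β x else ω x)) * ∏ x ∈ S, ρ (β x) ≤
      ∑ Z : E → L, wt ρ Z * F Z := by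
  rw [sum_push ρ (fun x l => if x ∈ S then β x else l) F, Finset.sum_mul]
  refine Finset.sum_le_sum fun Z _ => ?_
  rw [mul_right_comm]
  refine mul_le_mul_of_nonneg_right ?_ (hF Z)
  have e1 : ∏ x ∈ S, ρ (β x) = ∏ x, if x ∈ S then ρ (β x) else 1 := by
    rw [Finset.prod_ite_mem]; simp
  rw [e1, ← Finset.prod_mul_distrib]
  unfold wt
  refine Finset.prod_le_prod (fun x _ => ?_) (fun x _ => ?_)
  · refine mul_nonneg (Finset.sum_nonneg fun l _ => ?_) ?_
    · split_ifs <;> simp [h0]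
    · split_ifs <;> simp [h0]
  · by_cases hx : x ∈ S
    · simp only [hx, if_true]
      by_cases hb : β x = Z x
      · simp [hb, h1]
      · simp [hb, h0]
    · simp [hx]

omit [DecidableEq L] in
/-- expectation of a product over a set of coordinates -/
lemma sum_wt_prod {ρ : L → ℝ} (h1 : ∑ l, ρ l = 1) (S : Finset E) (g : L → ℝ) :
    ∑ ω : E → L, wt ρ ω * ∏ x ∈ S, g (ω x) = (∑ l, ρ l * g l) ^ S.card := by
  have : ∀ ω : E → L, wt ρ ω * ∏ x ∈ S, g (ω x) =
      ∏ x, (ρ (ω x) * if x ∈ S then g (ω x) else 1) := by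
    intro ω
    rw [Finset.prod_mul_distrib, Finset.prod_ite_mem]
    simp [wt]
  simp_rw [this]
  rw [sum_prod_fun (fun x l => ρ l * if x ∈ S then g l else 1)]
  have : ∀ x, (∑ l, ρ l * if x ∈ S then g l else 1) =
      if x ∈ S then (∑ l, ρ l * g l) else 1 := by
    intro x
    split_ifs <;> simp [h1]
  simp_rw [this]
  rw [Finset.prod_ite_mem]
  simp

end Crest.Agent.H0076
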