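import Crest.Agent.H0076.Key

set_option autoImplicit false
open Finset

namespace Crest.Agent.H0076

variable {Γ V E : Type*} [Fintype Γ] [Fintype V] [DecidableEq V] [Fintype E] [DecidableEq E]

open Classical in
/-- sparse implies spread -/
lemma spread [Group Γ] (a : Γ →* Equiv.Perm E) (φ : Γ → V ↪ E)
    (hφ : ∀ g π v, a g (φ π v) = φ (g * π) v) (q : ℝ) (hq0 : 0 < q)
    (hsp : ∀ (I : Finset V) (U : Finset E),
      ((univ.filter fun π => I.map (φ π) = U).card : ℝ) ≤ 2 * q ^ I.card * Fintype.card Γ)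
    (J : Finset E) :
    ((univ.filter fun π => J ⊆ univ.map (φ π)).card : ℝ) ≤
      2 * (6 * 2 ^ 54 * q * Real.exp 14) ^ J.card * Fintype.card Γ := by
  set 𝒜 := univ.filter fun π => J ⊆ univ.map (φ π) with h𝒜
  have hΓ : (0:ℝ) < Fintype.card Γ := by exact_mod_cast Fintype.card_pos
  rcases 𝒜.eq_empty_or_nonempty with hA | hA
  · rw [hA]; simp only [card_empty, Nat.cast_zero]; positivity
  rcases J.eq_empty_or_nonempty with hJ | hJ
  · have : (𝒜.card : ℝ) ≤ Fintype.card Γ := by exact_mod_cast Finset.card_le_univ _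
    rw [hJ]; simp only [card_empty, pow_zero]; linarith
  have hA0 : (0:ℝ) < 𝒜.card := by exact_mod_cast hA.card_pos
  have hJ0 : (0:ℝ) < J.card := by exact_mod_cast hJ.card_pos
  have hI : ∀ π ∈ 𝒜, (univ.filter fun v => φ π v ∈ J).map (φ π) = J := by
    intro π hπ
    have h2 : J ⊆ univ.map (φ π) := (mem_filter.1 hπ).2
    ext x
    constructor
    · intro hx
      obtain ⟨v, hv, rfl⟩ := Finset.mem_map.1 hx
      exact (mem_filter.1 hv).2
    · intro hx
      obtain ⟨v, -, rfl⟩ := Finset.mem_map.1 (h2 hx)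
      exact Finset.mem_map_of_mem _ (by simpa using hx)
  -- double counting
  have hdc : ∀ f : V → ℝ, ∑ π ∈ 𝒜, ∑ v ∈ univ.filter (fun v => φ π v ∈ J), f v =
      ∑ v, ((𝒜.filter fun π => φ π v ∈ J).card : ℝ) * f v := by
    intro f
    simp only [Finset.sum_filter (s := (univ : Finset V))]
    rw [Finset.sum_comm]
    refine Finset.sum_congr rfl fun v _ => ?_
    rw [← Finset.sum_filter]
    simp
  let lam : V → ℝ := fun v => ((𝒜.filter fun π => φ π v ∈ J).card : ℝ) / (𝒜.card * J.card)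
  have hlam0 : ∀ v, 0 ≤ lam v := fun v => by simp only [lam]; positivity
  have hlam1 : ∑ v, lam v ≤ 1 := by
    simp only [lam]
    rw [← Finset.sum_div, div_le_one (by positivity)]
    have h2 := hdc fun _ => 1
    simp only [mul_one] at h2
    rw [← h2]
    refine le_of_eq ?_
    rw [Finset.sum_congr rfl (g := fun _ => (J.card : ℝ)) fun π hπ => by
      rw [Finset.sum_const, nsmul_eq_mul, mul_one, ← Finset.card_map (φ π), hI π hπ]]
    simp
  obtain ⟨k, L, hL0, hL, hcard, hlam, hsum⟩ := blocks lam hlam0 hlam1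
  obtain ⟨A, ρ, d, h0, h1, hd0, hρd, hbad⟩ := key φ q hq0 hsp k hL0 hL hcard hsum
  let F : (E → Fin (A + 1)) → ℝ := fun ω => ∑ γ : Γ, ∏ x ∈ J, Real.exp (- d (ω (a γ x)))
  have hF0 : ∀ ω, 0 ≤ F ω := fun ω => Finset.sum_nonneg fun γ _ =>
    Finset.prod_nonneg fun x _ => (Real.exp_pos _).le
  have hEF : ∑ ω, wt ρ ω * F ω ≤ (6 * 2 ^ 54 * q) ^ J.card * Fintype.card Γ := by
    simp only [F, Finset.mul_sum]
    rw [Finset.sum_comm]
    have : ∀ γ : Γ, ∑ ω : E → Fin (A + 1), wt ρ ω * ∏ x ∈ J, Real.exp (- d (ω (a γ x))) ≤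
        (6 * 2 ^ 54 * q) ^ J.card := by
      intro γ
      have h2 := sum_wt_prod h1 (J.map (a γ).toEmbedding) fun l => Real.exp (- d l)
      simp only [Finset.prod_map, Finset.card_map, Equiv.coe_toEmbedding] at h2
      rw [h2]
      have : 0 ≤ ∑ l, ρ l * Real.exp (- d l) :=
        Finset.sum_nonneg fun l _ => mul_nonneg (h0 l) (Real.exp_pos _).le
      gcongr
    refine (Finset.sum_le_sum fun γ _ => this γ).trans (le_of_eq ?_)
    simp [mul_comm]
  have hgood : ∀ ω : E → Fin (A + 1), ∀ G, ∑ v, L (k v) * d (ω (φ G v)) ≤ 14 →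
      𝒜.card * Real.exp (- (14 * J.card)) ≤ F ω := by
    intro ω G hG
    let z : Γ → ℝ := fun π => ∑ v ∈ univ.filter (fun v => φ π v ∈ J), d (ω (φ G v))
    have hz : ∑ π ∈ 𝒜, z π ≤ 𝒜.card * (14 * J.card) := by
      rw [hdc]
      have : ∑ v, ((𝒜.filter fun π => φ π v ∈ J).card : ℝ) * d (ω (φ G v)) ≤
          ∑ v, 𝒜.card * J.card * (L (k v) * d (ω (φ G v))) := by
        refine Finset.sum_le_sum fun v _ => ?_
        rw [← mul_assoc]
        refine mul_le_mul_of_nonneg_right ?_ (hd0 _)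
        have h2 := hlam v
        simp only [lam] at h2
        rw [div_le_iff₀ (by positivity)] at h2
        linarith
      rw [← Finset.mul_sum] at this
      have h3 : 0 < (𝒜.card : ℝ) * J.card := by positivity
      nlinarith
    have h2 : ∑ π ∈ 𝒜, Real.exp (- z π) ≤ F ω := by
      have e : F ω = ∑ π : Γ, ∏ x ∈ J, Real.exp (- d (ω (a (G * π⁻¹) x))) := by
        simp only [F]
        exact (Equiv.sum_comp ((Equiv.inv Γ).trans (Equiv.mulLeft G))
          (fun γ => ∏ x ∈ J, Real.exp (- d (ω (a γ x))))).symm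
      rw [e]
      refine le_trans (Finset.sum_le_sum fun π hπ => le_of_eq ?_)
        (Finset.sum_le_sum_of_subset_of_nonneg (subset_univ 𝒜) fun π _ _ =>
          Finset.prod_nonneg fun x _ => (Real.exp_pos _).le)
      conv_rhs => rw [← hI π hπ, Finset.prod_map]
      simp only [z]
      rw [← Finset.sum_neg_distrib, Real.exp_sum]
      refine Finset.prod_congr rfl fun v _ => ?_
      rw [hφ, inv_mul_cancel_right]
    refine le_trans ?_ h2
    have h3 : ∀ π, Real.exp (- (14 * J.card)) * (1 + (14 * J.card - z π)) ≤ Real.exp (- z π) := by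
      intro π
      have e : Real.exp (- z π) = Real.exp (- (14 * J.card)) * Real.exp (14 * J.card - z π) := by
        rw [← Real.exp_add]; congr 1; ring
      rw [e]
      have := Real.add_one_le_exp (14 * J.card - z π)
      gcongr
      linarith
    refine le_trans ?_ (Finset.sum_le_sum fun π _ => h3 π)
    rw [← Finset.mul_sum, Finset.sum_add_distrib, Finset.sum_sub_distrib, mul_comm]
    simp only [Finset.sum_const, nsmul_eq_mul, mul_one]
    gcongr
    linarith
  have hlow : 𝒜.card * Real.exp (- (14 * J.card)) / 2 ≤ ∑ ω, wt ρ ω * F ω := by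
    have h2 : ∑ ω : E → Fin (A + 1), wt ρ ω * (𝒜.card * Real.exp (- (14 * J.card)) *
        (1 - if ∀ G, 14 < ∑ v, L (k v) * d (ω (φ G v)) then (1:ℝ) else 0)) ≤
        ∑ ω, wt ρ ω * F ω := by
      refine Finset.sum_le_sum fun ω _ => mul_le_mul_of_nonneg_left ?_ (wt_nonneg h0 ω)
      split_ifs with h
      · simpa using hF0 ω
      · push Not at h
        obtain ⟨G, hG⟩ := h
        simpa using hgood ω G hG
    refine le_trans ?_ h2
    have e : ∑ ω : E → Fin (A + 1), wt ρ ω * (𝒜.card * Real.exp (- (14 * J.card)) *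
        (1 - if ∀ G, 14 < ∑ v, L (k v) * d (ω (φ G v)) then (1:ℝ) else 0)) =
        𝒜.card * Real.exp (- (14 * J.card)) * (∑ ω : E → Fin (A + 1), wt ρ ω -
          ∑ ω : E → Fin (A + 1), wt ρ ω *
            if ∀ G, 14 < ∑ v, L (k v) * d (ω (φ G v)) then (1:ℝ) else 0) := by
      rw [← Finset.sum_sub_distrib, Finset.mul_sum]
      exact Finset.sum_congr rfl fun ω _ => by ring
    rw [e, sum_wt h1]
    have : 0 < 𝒜.card * Real.exp (- (14 * J.card)) := by positivity
    nlinarith
  have h3 := hlow.trans hEF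
  rw [mul_pow, ← Real.exp_nat_mul, mul_comm (J.card : ℝ) 14]
  rw [Real.exp_neg, div_le_iff₀ (by norm_num), ← div_eq_mul_inv,
    div_le_iff₀ (Real.exp_pos _)] at h3
  linarith

end Crest.Agent.H0076
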